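import Vale.Agent.P073.H940.L2

open MeasureTheory Set Filter Topology Metric
open scoped ContDiff ENNReal Convolution

namespace Vale.Agent.P073.H940

variable {d : ℕ}

lemma cv_integrable {ρ : Measure (E d)} [SFinite ρ] {a κ : E d → ℝ} (ha : Integrable a ρ)
    (hκ : Integrable κ volume) : Integrable (cv ρ a κ) volume :=
  (ha.convolution_integrand (ContinuousLinearMap.mul ℝ ℝ) hκ).integral_prod_left

lemma cv_integral {ρ : Measure (E d)} [SFinite ρ] {a κ : E d → ℝ} (ha : Integrable a ρ)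
    (hκ : Integrable κ volume) : ∫ x, cv ρ a κ x = (∫ y, a y ∂ρ) * ∫ x, κ x :=
  integral_convolution (ContinuousLinearMap.mul ℝ ℝ) ha hκ

lemma int_pd {f : E d → ℝ} (hf : ContDiff ℝ ∞ f) (hc : HasCompactSupport f) (i : Fin d) :
    ∫ x, pd i f x = 0 := by
  have h := ibp hf (contDiff_const (c := (1 : ℝ))) hc i
  have e : ∀ x : E d, pd i (fun _ : E d => (1 : ℝ)) x = 0 := fun x => by
    unfold pd
    simp
  simp only [e, mul_zero, mul_one, integral_zero] at h
  linarith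

/-- the kernel data -/
structure Ker (d : ℕ) where
  φ : E d → ℝ
  η : E d → ℝ
  hφ : ContDiff ℝ ∞ φ
  hη : ContDiff ℝ ∞ η
  hsφ : ∀ x, 1 < ‖x‖ → φ x = 0
  hsη : ∀ x, 1 < ‖x‖ → η x = 0
  h0 : ∀ x, 0 ≤ φ x
  h1 : ∫ x, φ x = 1
  hlap : ∀ x, ∑ i, pd i (pd i η) x = 2 ^ d * φ ((2 : ℝ) • x) - φ x

lemma exists_ker (hd : 0 < d) : Nonempty (Ker d) := by
  obtain ⟨φ, η, h1, h2, h3, h4, h5, h6, h7⟩ := exists_kernel hd
  exact ⟨⟨φ, η, h1, h2, h3, h4, h5, h6, h7⟩⟩

/-- second derivative kernels -/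
noncomputable def Ker.K (k : Ker d) (M : ℕ) (i j : Fin d) : E d → ℝ :=
  pd j (pd i (Gam d M k.η))

lemma Ker.K_contDiff (k : Ker d) (M : ℕ) (i j : Fin d) : ContDiff ℝ ∞ (k.K M i j) :=
  contDiff_pd (contDiff_pd (dil_contDiff M _ k.hη) i) j

lemma Ker.K_cs (k : Ker d) (M : ℕ) (i j : Fin d) : HasCompactSupport (k.K M i j) :=
  pd_cs (pd_cs (hasCS (dil_supp M _ k.hsη)) i) j

lemma Ker.K_integrable (k : Ker d) (M : ℕ) (i j : Fin d) : Integrable (k.K M i j) :=
  (k.K_contDiff M i j).continuous.integrable_of_hasCompactSupport (k.K_cs M i j)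

lemma Ker.K_int (k : Ker d) (M : ℕ) (i j : Fin d) : ∫ x, k.K M i j x = 0 :=
  int_pd (contDiff_pd (dil_contDiff M _ k.hη) i) (pd_cs (hasCS (dil_supp M _ k.hsη)) i) j

/-- The Calderón–Zygmund black box. -/
theorem cz_box (hd : 0 < d) (k : Ker d) : ∃ C : ℝ, 0 ≤ C ∧ ∀ (M : ℕ) (i j : Fin d)
    (ρ : Measure (E d)) [IsFiniteMeasure ρ] (a : E d → ℝ), Integrable a ρ →
    (∃ R : ℝ, ∀ x, R < ‖x‖ → a x = 0) → ∀ lam : ℝ, 0 < lam →
    ∃ (V : Set (E d)) (u : E d → ℝ), MeasurableSet V ∧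
      volume V ≤ ENNReal.ofReal (C / lam * ∫ y, |a y| ∂ρ) ∧
      Integrable u ∧ Integrable (fun x => u x ^ 2) ∧
      ∫ x, u x ^ 2 ≤ C * lam * ∫ y, |a y| ∂ρ ∧
      ∫ x in Vᶜ, |cv ρ a (k.K M i j) x - u x| ≤ C * ∫ y, |a y| ∂ρ ∧
      ∫ x, (cv ρ a (k.K M i j) x - u x) = 0 := by
  have hd' : (1 : ℝ) ≤ d := by exact_mod_cast hd
  -- Hörmander constants
  have hHor : ∀ i j : Fin d, ∃ C : ℝ, 0 ≤ C ∧ ∀ (M : ℕ) (y c : E d) (δ : ℝ), 0 < δ →
      ‖y - c‖ ≤ δ →
      ∀ S : Set (E d), MeasurableSet S → ((∀ x ∈ S, 2 * δ ≤ ‖x - c‖) ∨ (2 : ℝ) ^ M * δ ≤ 1) →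
      ∫⁻ x in S, ‖k.K M i j (x - y) - k.K M i j (x - c)‖ₑ ≤ ENNReal.ofReal C := by
    intro i j
    obtain ⟨C, hC, h⟩ := hormander (contDiff_pd (contDiff_pd k.hη i) j)
      (pd_supp (pd_supp k.hsη i) j)
    refine ⟨C, hC, fun M y c δ hδ hyc S hS h' => ?_⟩
    have e : k.K M i j = dil M (fun m => ((2 : ℝ) ^ m) ^ d) (pd j (pd i k.η)) :=
      pd_pd_Gam M k.hη i j
    rw [e]
    exact h M y c δ hδ hyc S hS h'
  choose CH hCH0 hCH using hHor
  set C1 : ℝ := ∑ i, ∑ j, CH i j with hC1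
  have hC1le : ∀ i j, CH i j ≤ C1 := fun i j =>
    (Finset.single_le_sum (f := fun j => CH i j) (fun j _ => hCH0 i j) (Finset.mem_univ j)).trans
      (Finset.single_le_sum (f := fun i => ∑ j, CH i j)
        (fun i _ => Finset.sum_nonneg fun j _ => hCH0 i j) (Finset.mem_univ i))
  have hC10 : 0 ≤ C1 := Finset.sum_nonneg fun i _ => Finset.sum_nonneg fun j _ => hCH0 i j
  set v : ℝ := (volume (ball (0 : E d) 1)).toReal with hv
  have hv0 : 0 ≤ v := ENNReal.toReal_nonneg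
  refine ⟨2 * C1 + (2 * d) ^ d * v + 4 * 2 ^ d, by positivity, ?_⟩
  intro M i j ρ _ a ha ⟨R, hR⟩ lam hlam
  set A : ℝ := ∫ y, |a y| ∂ρ with hA
  have hA0 : 0 ≤ A := integral_nonneg fun y => abs_nonneg _
  have hAe : ∫⁻ y, ‖a y‖ₑ ∂ρ = ENNReal.ofReal A := by
    rw [hA]
    have := ofReal_integral_norm_eq_lintegral_enorm ha
    simpa using this.symm
  obtain ⟨Bk, hBk⟩ := bdd_of (k.K_contDiff M i j).continuous (k.K_cs M i j)
  set l : ℝ := max (2 * R + 1) (A / lam + 1) with hl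
  have hl1 : 1 ≤ l := le_trans (by have := div_nonneg hA0 hlam.le; linarith) (le_max_right _ _)
  have hl0 : 0 < l := by linarith
  set c : E d := WithLp.toLp 2 fun _ => -(l / 2) with hc
  have hsupp : ∀ x, x ∉ cube c l → a x = 0 := by
    intro x hx
    apply hR
    by_contra hcon
    push Not at hcon
    apply hx
    intro m
    have h1 : |x m| ≤ ‖x‖ := by
      have := PiLp.norm_apply_le x m
      simpa using this
    have h2 : 2 * R + 1 ≤ l := le_max_left _ _
    have h3 := abs_le.1 h1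
    simp only [hc, mem_Ico]
    constructor <;> linarith
  have hcube : ∫⁻ y in cube c l, ‖a y‖ₑ ∂ρ ≤ ENNReal.ofReal A :=
    (setLIntegral_le_lintegral _ _).trans hAe.le
  have hld : A ≤ lam * l ^ d := by
    have h1 : l ≤ l ^ d := le_self_pow₀ hl1 hd.ne'
    have h2 : A / lam + 1 ≤ l := le_max_right _ _
    have h3 : A / lam ≤ l ^ d := by linarith
    rw [div_le_iff₀ hlam] at h3
    linarith
  obtain ⟨n, hn⟩ := pow_unbounded_of_one_lt ((2 : ℝ) ^ M * (d * l)) (by norm_num : (1 : ℝ) < 2)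
  have hn' : (2 : ℝ) ^ M * (d * (l / 2 ^ n)) ≤ 1 := by
    have h2n : (0 : ℝ) < 2 ^ n := by positivity
    rw [show (2 : ℝ) ^ M * (d * (l / 2 ^ n)) = (2 : ℝ) ^ M * (d * l) / 2 ^ n by ring,
      div_le_one h2n]
    exact hn.le
  obtain ⟨g, V, hg1, hg2, hg3, hV1, hg4, hV2, hu⟩ := cz_aux (k.K_contDiff M i j).continuous hBk hd
    (fun y c δ hδ hyc S hS h' => hCH i j M y c δ hδ hyc S hS h') ha hlam n c l hl0
    (hcube.trans (ENNReal.ofReal_le_ofReal hld)) hn'
  have hgi : Integrable g := by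
    refine ⟨hg1.aestronglyMeasurable, ?_⟩
    rw [HasFiniteIntegral]
    exact (hg4.trans hcube).trans_lt ENNReal.ofReal_lt_top
  have hgc : HasCompactSupport g := by
    refine HasCompactSupport.intro (isCompact_closedBall c (d * l)) fun x hx => hg3 x fun hxc => ?_
    apply hx
    rw [mem_closedBall, dist_eq_norm]
    exact cube_norm hxc
  have hgA : ∫ x, |g x| ≤ A := by
    have h1 := ofReal_integral_norm_eq_lintegral_enorm hgi
    have h2 : ENNReal.ofReal (∫ x, |g x|) ≤ ENNReal.ofReal A := by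
      calc ENNReal.ofReal (∫ x, |g x|) = ∫⁻ x, ‖g x‖ₑ := by simpa using h1
        _ ≤ _ := hg4.trans hcube
    exact (ENNReal.ofReal_le_ofReal_iff hA0).1 h2
  have hl2 := l2_bound k.hφ k.hη k.hsφ k.hsη k.h0 k.h1 k.hlap M i j hgi hg2 hg1 hgc
  have hcvr : cv (ρ.restrict (cube c l)) a (k.K M i j) = cv ρ a (k.K M i j) := by
    funext x
    unfold cv
    exact setIntegral_eq_integral_of_forall_compl_eq_zero fun y hy => by rw [hsupp y hy, zero_mul]
  have hci := cv_integrable (ρ := ρ) ha (k.K_integrable M i j)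
  have hcg := cv_integrable (ρ := volume) hgi (k.K_integrable M i j)
  refine ⟨V, cv volume g (k.K M i j), hV1, ?_, hcg, hl2.1, ?_, ?_, ?_⟩
  · calc volume V ≤ ENNReal.ofReal ((2 * d) ^ d / lam) * volume (ball (0 : E d) 1) *
          ∫⁻ y in cube c l, ‖a y‖ₑ ∂ρ := hV2
      _ ≤ ENNReal.ofReal ((2 * d) ^ d / lam) * volume (ball (0 : E d) 1) * ENNReal.ofReal A := by
          gcongr
      _ = ENNReal.ofReal ((2 * d) ^ d / lam * v * A) := by
          rw [ENNReal.ofReal_mul (by positivity), ENNReal.ofReal_mul (by positivity), hv,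
            ENNReal.ofReal_toReal measure_ball_lt_top.ne]
      _ ≤ _ := by
          refine ENNReal.ofReal_le_ofReal (mul_le_mul_of_nonneg_right ?_ hA0)
          rw [div_mul_eq_mul_div]
          refine div_le_div_of_nonneg_right ?_ hlam.le
          have : (0 : ℝ) ≤ 4 * 2 ^ d := by positivity
          linarith
  · refine hl2.2.trans ?_
    have h1 : ∫ x, g x ^ 2 ≤ ∫ x, 2 ^ d * lam * |g x| := by
      refine integral_mono_of_nonneg (Eventually.of_forall fun x => sq_nonneg _)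
        (hgi.abs.const_mul _) (Eventually.of_forall fun x => ?_)
      simp only
      rw [← sq_abs, sq]
      exact mul_le_mul_of_nonneg_right (hg2 x) (abs_nonneg _)
    rw [integral_const_mul] at h1
    have h2 : (2 : ℝ) ^ d * lam * ∫ x, |g x| ≤ 2 ^ d * lam * A :=
      mul_le_mul_of_nonneg_left hgA (by positivity)
    have h3 : 4 * (2 ^ d * lam * A) ≤ (2 * C1 + (2 * d) ^ d * v + 4 * 2 ^ d) * lam * A := by
      have h4 : 0 ≤ (2 * C1 + (2 * d) ^ d * v) * (lam * A) := by positivity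
      nlinarith
    linarith
  · have h1 : ∫ x in Vᶜ, |cv ρ a (k.K M i j) x - cv volume g (k.K M i j) x| ≤ 2 * C1 * A := by
      have h2 := ofReal_integral_norm_eq_lintegral_enorm (hci.sub hcg).integrableOn (μ := volume.restrict Vᶜ)
      have h3 : ENNReal.ofReal (∫ x in Vᶜ, |cv ρ a (k.K M i j) x - cv volume g (k.K M i j) x|) ≤
          ENNReal.ofReal (2 * C1 * A) := by
        calc _ = ∫⁻ x in Vᶜ, ‖cv ρ a (k.K M i j) x - cv volume g (k.K M i j) x‖ₑ := by
              simpa using h2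
          _ ≤ 2 * ENNReal.ofReal (CH i j) * ∫⁻ y in cube c l, ‖a y‖ₑ ∂ρ := by
              rw [← hcvr]
              exact hu
          _ ≤ 2 * ENNReal.ofReal C1 * ENNReal.ofReal A := by
              gcongr
              exact hC1le i j
          _ = _ := by
              rw [ENNReal.ofReal_mul (by positivity), ENNReal.ofReal_mul (by norm_num)]
              simp
      exact (ENNReal.ofReal_le_ofReal_iff (by positivity)).1 h3
    refine h1.trans (mul_le_mul_of_nonneg_right ?_ hA0)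
    have : (0 : ℝ) ≤ (2 * d) ^ d * v + 4 * 2 ^ d := by positivity
    linarith
  · rw [integral_sub hci hcg, cv_integral ha (k.K_integrable M i j),
      cv_integral hgi (k.K_integrable M i j), k.K_int]
    simp

end Vale.Agent.P073.H940
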