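import Vale.Agent.P073.H940.Box

open MeasureTheory Set Filter Topology Metric
open scoped ContDiff ENNReal Convolution

namespace Vale.Agent.P073.H940

variable {d : ℕ}

lemma am_gm {W : Set (E d)} (hWf : volume W ≠ ⊤) {u : E d → ℝ}
    (hu : Integrable u) (hu2 : Integrable (fun x => u x ^ 2)) {t : ℝ} (ht : 0 < t) :
    ∫ x in W, |u x| ≤ (t * (volume W).toReal + (1 / t) * ∫ x, u x ^ 2) / 2 := by
  have : IsFiniteMeasure (volume.restrict W) := ⟨by
    rw [Measure.restrict_apply_univ]; exact lt_top_iff_ne_top.2 hWf⟩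
  have h1 : ∫ x in W, |u x| ≤ ∫ x in W, (t / 2 + 1 / t / 2 * u x ^ 2) := by
    refine integral_mono hu.abs.integrableOn
      ((integrable_const _).add (hu2.integrableOn.const_mul _)) fun x => ?_
    have h2 : 0 ≤ (|u x| - t) ^ 2 := sq_nonneg _
    have h3 : |u x| ^ 2 = u x ^ 2 := sq_abs _
    simp only
    rw [← h3]
    have h4 : t / 2 + 1 / t / 2 * |u x| ^ 2 - |u x| = (|u x| - t) ^ 2 / (2 * t) := by
      field_simp
      ring
    have h5 : 0 ≤ (|u x| - t) ^ 2 / (2 * t) := by positivity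
    linarith
  refine h1.trans ?_
  rw [integral_add (integrable_const _) (hu2.integrableOn.const_mul _), integral_const_mul,
    setIntegral_const, smul_eq_mul]
  have h6 : ∫ x in W, u x ^ 2 ≤ ∫ x, u x ^ 2 :=
    setIntegral_le_integral hu2 (Eventually.of_forall fun x => sq_nonneg _)
  have h7 : 1 / t / 2 * ∫ x in W, u x ^ 2 ≤ 1 / t / 2 * ∫ x, u x ^ 2 :=
    mul_le_mul_of_nonneg_left h6 (by positivity)
  unfold Measure.real
  linarith

lemma core_abs {ι : Type*} [Fintype ι] {f r : E d → ℝ} {u w : ι → E d → ℝ}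
    {Vi : ι → Set (E d)} {U : Set (E d)}
    (hVm : ∀ i, MeasurableSet (Vi i)) (hr : Integrable r) (hu : ∀ i, Integrable (u i))
    (hw : ∀ i, Integrable (w i)) (hw0 : ∀ i, ∫ x, w i x = 0) (hf0 : ∀ x, 0 ≤ f x)
    (hf : ∀ x, f x = r x + ∑ i, (u i x + w i x)) :
    ∫ x in U, f x ≤ ((∫ x in U, |r x|) + ∫ x in (⋃ i, Vi i), |r x|) +
      (∑ i, ((∫ x in U, |u i x|) + ∫ x in (⋃ i, Vi i), |u i x|)) +
      2 * ∑ i, ∫ x in (Vi i)ᶜ, |w i x| := by
  set V : Set (E d) := ⋃ i, Vi i with hV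
  have hVm' : MeasurableSet V := MeasurableSet.iUnion hVm
  have hs : Integrable fun x => ∑ i, (u i x + w i x) :=
    integrable_finsetSum _ fun i _ => (hu i).add (hw i)
  have hfe : f = fun x => r x + ∑ i, (u i x + w i x) := funext hf
  have hfi : Integrable f := by
    rw [hfe]
    exact hr.add hs
  have step1 : ∫ x in U, f x ≤ (∫ x in U \ V, f x) + ∫ x in V, f x := by
    rw [← setIntegral_union disjoint_sdiff_left hVm' hfi.integrableOn hfi.integrableOn,
      sdiff_union_self]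
    exact setIntegral_mono_set hfi.integrableOn (Eventually.of_forall hf0)
      (Eventually.of_forall fun x hx => Or.inl hx)
  have hsplit : ∀ S : Set (E d), ∫ x in S, f x =
      (∫ x in S, r x) + ∑ i, ((∫ x in S, u i x) + ∫ x in S, w i x) := by
    intro S
    rw [hfe]
    rw [integral_add hr.integrableOn hs.integrableOn,
      integral_finsetSum (s := Finset.univ) (f := fun i x => u i x + w i x)
        fun i _ => ((hu i).add (hw i)).integrableOn]
    congr 1
    refine Finset.sum_congr rfl fun i _ => ?_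
    exact integral_add (hu i).integrableOn (hw i).integrableOn
  have habs : ∀ (S T : Set (E d)) (g : E d → ℝ), Integrable g → S ⊆ T →
      ∫ x in S, g x ≤ ∫ x in T, |g x| := by
    intro S T g hg hST
    calc ∫ x in S, g x ≤ ∫ x in S, |g x| :=
          integral_mono hg.integrableOn hg.abs.integrableOn fun x => le_abs_self _
      _ ≤ _ := setIntegral_mono_set hg.abs.integrableOn
          (Eventually.of_forall fun x => abs_nonneg _) (Eventually.of_forall fun x hx => hST hx)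
  have step2 : ∫ x in U \ V, f x ≤ (∫ x in U, |r x|) +
      ∑ i, ((∫ x in U, |u i x|) + ∫ x in (Vi i)ᶜ, |w i x|) := by
    rw [hsplit]
    refine add_le_add (habs _ _ _ hr sdiff_subset) (Finset.sum_le_sum fun i _ => ?_)
    refine add_le_add (habs _ _ _ (hu i) sdiff_subset) (habs _ _ _ (hw i) fun x hx hxi => ?_)
    exact hx.2 (mem_iUnion.2 ⟨i, hxi⟩)
  have step3 : ∫ x in V, f x ≤ (∫ x in V, |r x|) +
      ∑ i, ((∫ x in V, |u i x|) + ∫ x in (Vi i)ᶜ, |w i x|) := by
    rw [hsplit]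
    refine add_le_add (habs _ _ _ hr subset_rfl) (Finset.sum_le_sum fun i _ => ?_)
    refine add_le_add (habs _ _ _ (hu i) subset_rfl) ?_
    have h1 : ∫ x in V, w i x = ∫ x in Vᶜ, (- w i x) := by
      have := integral_add_compl hVm' (hw i)
      rw [hw0 i] at this
      rw [integral_neg]
      linarith
    rw [h1]
    have h2 := habs Vᶜ (Vi i)ᶜ (fun x => - w i x) (hw i).neg
      (compl_subset_compl.2 (subset_iUnion Vi i))
    simpa using h2
  calc _ ≤ _ := step1
    _ ≤ _ := add_le_add step2 step3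
    _ = _ := by
      simp only [Finset.sum_add_distrib]
      ring

/-- The core estimate. -/
theorem core (hd : 0 < d) (k : Ker d) : ∃ C : ℝ, 0 ≤ C ∧ ∀ A : ℝ, 0 ≤ A → ∀ δr : ℝ, 0 < δr →
    ∀ τ : ℝ, 0 < τ → ∃ δ : ℝ, 0 < δ ∧ ∀ (M : ℕ) (ρ : Measure (E d)) [IsFiniteMeasure ρ]
    (a : Fin d × Fin d → E d → ℝ), (∀ p, Integrable (a p) ρ) →
    (∃ R : ℝ, ∀ p x, R < ‖x‖ → a p x = 0) → (∑ p, ∫ y, |a p y| ∂ρ ≤ A) →
    ∀ f r : E d → ℝ, (∀ x, 0 ≤ f x) → Integrable r →
    (∀ W : Set (E d), MeasurableSet W → volume W ≤ ENNReal.ofReal δr → ∫ x in W, |r x| ≤ τ) →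
    (∀ x, f x = r x + ∑ p, cv ρ (a p) (k.K M p.1 p.2) x) →
    ∀ U : Set (E d), MeasurableSet U → volume U ≤ ENNReal.ofReal δ →
      ∫ x in U, f x ≤ C * A + 3 * τ := by
  obtain ⟨C0, hC0, hbox⟩ := cz_box hd k
  set N : ℝ := (Fintype.card (Fin d × Fin d) : ℝ) with hN
  have hN0 : 0 ≤ N := Nat.cast_nonneg _
  refine ⟨C0 * ((N + 1) / 2 + 2), by positivity, ?_⟩
  intro A hA δr hδr τ hτ
  set lam : ℝ := C0 * A / δr + 1 with hlam
  have hlam0 : 0 < lam := by positivity
  set t : ℝ := C0 * lam * A / τ + 1 with ht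
  have ht0 : 0 < t := by positivity
  set δ : ℝ := min δr (τ / (t * (N + 1))) with hδ
  have hδ0 : 0 < δ := lt_min hδr (by positivity)
  refine ⟨δ, hδ0, ?_⟩
  intro M ρ _ a ha ⟨R, hR⟩ hsum f r hf0 hr hrτ hfr U hU hUδ
  have hbox' : ∀ p : Fin d × Fin d, ∃ (V : Set (E d)) (u : E d → ℝ), MeasurableSet V ∧
      volume V ≤ ENNReal.ofReal (C0 / lam * ∫ y, |a p y| ∂ρ) ∧
      Integrable u ∧ Integrable (fun x => u x ^ 2) ∧
      ∫ x, u x ^ 2 ≤ C0 * lam * ∫ y, |a p y| ∂ρ ∧
      ∫ x in Vᶜ, |cv ρ (a p) (k.K M p.1 p.2) x - u x| ≤ C0 * ∫ y, |a p y| ∂ρ ∧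
      ∫ x, (cv ρ (a p) (k.K M p.1 p.2) x - u x) = 0 := fun p =>
    hbox M p.1 p.2 ρ (a p) (ha p) ⟨R, fun x hx => hR p x hx⟩ lam hlam0
  choose Vi u hVm hVv hui hu2 huL hwL hw0 using hbox'
  have hap : ∀ p, 0 ≤ ∫ y, |a p y| ∂ρ := fun p => integral_nonneg fun y => abs_nonneg _
  have hwi : ∀ p, Integrable fun x => cv ρ (a p) (k.K M p.1 p.2) x - u p x := fun p =>
    (cv_integrable (ha p) (k.K_integrable M _ _)).sub (hui p)
  have hmain := core_abs (Vi := Vi) (U := U) (f := f) (r := r) (u := u)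
    (w := fun p x => cv ρ (a p) (k.K M p.1 p.2) x - u p x) hVm hr hui hwi hw0 hf0
    (fun x => by rw [hfr]; simp)
  set V : Set (E d) := ⋃ p, Vi p with hV
  have hVm' : MeasurableSet V := MeasurableSet.iUnion hVm
  have hVvol : volume V ≤ ENNReal.ofReal (C0 / lam * A) := by
    calc volume V ≤ ∑ p, volume (Vi p) := by
          have := measure_iUnion_le (μ := (volume : Measure (E d))) Vi
          rwa [tsum_fintype] at this
      _ ≤ ∑ p, ENNReal.ofReal (C0 / lam * ∫ y, |a p y| ∂ρ) := Finset.sum_le_sum fun p _ => hVv p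
      _ = ENNReal.ofReal (∑ p, C0 / lam * ∫ y, |a p y| ∂ρ) := by
          rw [ENNReal.ofReal_sum_of_nonneg]
          intro p _
          exact mul_nonneg (by positivity) (hap p)
      _ ≤ _ := by
          refine ENNReal.ofReal_le_ofReal ?_
          rw [← Finset.mul_sum]
          exact mul_le_mul_of_nonneg_left hsum (by positivity)
  have hle1 : C0 / lam * A ≤ δr := by
    rw [div_mul_eq_mul_div, div_le_iff₀ hlam0, hlam]
    have : δr * (C0 * A / δr + 1) = C0 * A + δr := by field_simp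
    linarith
  have hVδ : volume V ≤ ENNReal.ofReal δr := hVvol.trans (ENNReal.ofReal_le_ofReal hle1)
  have hUδr : volume U ≤ ENNReal.ofReal δr :=
    hUδ.trans (ENNReal.ofReal_le_ofReal (min_le_left _ _))
  have hVtop : volume V ≠ ⊤ := ne_top_of_le_ne_top ENNReal.ofReal_ne_top hVδ
  have hUtop : volume U ≠ ⊤ := ne_top_of_le_ne_top ENNReal.ofReal_ne_top hUδr
  have hVreal : (volume V).toReal ≤ C0 / lam * A := by
    exact ENNReal.toReal_le_of_le_ofReal (by positivity) hVvol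
  have hUreal : (volume U).toReal ≤ τ / (t * (N + 1)) := by
    refine (ENNReal.toReal_le_of_le_ofReal hδ0.le hUδ).trans (min_le_right _ _)
  have hu2sum : ∑ p, ∫ x, u p x ^ 2 ≤ C0 * lam * A := by
    calc _ ≤ ∑ p, C0 * lam * ∫ y, |a p y| ∂ρ := Finset.sum_le_sum fun p _ => huL p
      _ = C0 * lam * ∑ p, ∫ y, |a p y| ∂ρ := by rw [Finset.mul_sum]
      _ ≤ _ := mul_le_mul_of_nonneg_left hsum (by positivity)
  have hsumU : ∀ (W : Set (E d)), volume W ≠ ⊤ → ∀ s : ℝ, 0 < s → ∑ p, ∫ x in W, |u p x| ≤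
      (s * (N * (volume W).toReal) + 1 / s * (C0 * lam * A)) / 2 := by
    intro W hW s hs
    calc _ ≤ ∑ p, (s * (volume W).toReal + (1 / s) * ∫ x, u p x ^ 2) / 2 :=
          Finset.sum_le_sum fun p _ => am_gm hW (hui p) (hu2 p) hs
      _ = (s * (N * (volume W).toReal) + 1 / s * ∑ p, ∫ x, u p x ^ 2) / 2 := by
          rw [Finset.mul_sum, ← Finset.sum_div, Finset.sum_add_distrib, Finset.sum_const,
            Finset.card_univ, nsmul_eq_mul, ← hN]
          ring
      _ ≤ _ := by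
          have : 1 / s * ∑ p, ∫ x, u p x ^ 2 ≤ 1 / s * (C0 * lam * A) :=
            mul_le_mul_of_nonneg_left hu2sum (by positivity)
          linarith
  have hU1 : ∑ p, ∫ x in U, |u p x| ≤ τ := by
    refine (hsumU U hUtop t ht0).trans ?_
    have h1 : t * (N * (volume U).toReal) ≤ τ := by
      calc t * (N * (volume U).toReal) ≤ t * (N * (τ / (t * (N + 1)))) := by gcongr
        _ = τ * (N / (N + 1)) := by field_simp
        _ ≤ τ * 1 := by
            refine mul_le_mul_of_nonneg_left ?_ hτ.le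
            rw [div_le_one (by positivity)]
            linarith
        _ = τ := mul_one _
    have h2 : 1 / t * (C0 * lam * A) ≤ τ := by
      rw [div_mul_eq_mul_div, one_mul, div_le_iff₀ ht0, ht]
      have : τ * (C0 * lam * A / τ + 1) = C0 * lam * A + τ := by field_simp
      linarith
    linarith
  have hV1 : ∑ p, ∫ x in V, |u p x| ≤ C0 * A * ((N + 1) / 2) := by
    refine (hsumU V hVtop lam hlam0).trans ?_
    have h1 : lam * (N * (volume V).toReal) ≤ N * (C0 * A) := by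
      calc lam * (N * (volume V).toReal) ≤ lam * (N * (C0 / lam * A)) := by gcongr
        _ = _ := by field_simp
    have h2 : 1 / lam * (C0 * lam * A) = C0 * A := by field_simp
    rw [h2]
    linarith
  have hW1 : ∑ p, ∫ x in (Vi p)ᶜ, |cv ρ (a p) (k.K M p.1 p.2) x - u p x| ≤ C0 * A := by
    calc _ ≤ ∑ p, C0 * ∫ y, |a p y| ∂ρ := Finset.sum_le_sum fun p _ => hwL p
      _ = C0 * ∑ p, ∫ y, |a p y| ∂ρ := by rw [Finset.mul_sum]
      _ ≤ _ := mul_le_mul_of_nonneg_left hsum hC0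
  have hr1 := hrτ U hU hUδr
  have hr2 := hrτ V hVm' hVδ
  rw [Finset.sum_add_distrib] at hmain
  calc _ ≤ _ := hmain
    _ ≤ (τ + τ) + (τ + C0 * A * ((N + 1) / 2)) + 2 * (C0 * A) := by linarith
    _ = _ := by ring

end Vale.Agent.P073.H940
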