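import Vale.Agent.P073.H940.Dil

open MeasureTheory Set Filter Topology Metric
open scoped ContDiff ENNReal

namespace Vale.Agent.P073.H940

variable {d : ℕ}

/-- half-open cube with corner `c` and side `l`. -/
def cube (c : E d) (l : ℝ) : Set (E d) := {x | ∀ i, x i ∈ Ico (c i) (c i + l)}

lemma cube_eq (c : E d) (l : ℝ) :
    cube c l = WithLp.ofLp ⁻¹' (Set.pi univ fun i => Ico (c i) (c i + l)) := by
  ext x
  simp [cube]

lemma cube_meas (c : E d) (l : ℝ) : MeasurableSet (cube c l) := by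
  rw [cube_eq]
  exact (PiLp.volume_preserving_ofLp (Fin d)).measurable
    (MeasurableSet.univ_pi fun i => measurableSet_Ico)

lemma cube_vol (c : E d) {l : ℝ} (hl : 0 ≤ l) : volume (cube c l) = ENNReal.ofReal (l ^ d) := by
  rw [cube_eq, (PiLp.volume_preserving_ofLp (Fin d)).measure_preimage
    (MeasurableSet.univ_pi fun i => measurableSet_Ico).nullMeasurableSet, Real.volume_pi_Ico]
  simp [ENNReal.ofReal_pow hl]

lemma cube_norm {c : E d} {l : ℝ} {x : E d} (hx : x ∈ cube c l) :
    ‖x - c‖ ≤ d * l := by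
  have h1 : ‖x - c‖ ≤ ∑ i : Fin d, l := by
    have h2 : x - c = ∑ i, (x - c) i • ei i := by
      ext j
      simp [ei, Pi.single_apply]
    rw [h2]
    refine (norm_sum_le _ _).trans (Finset.sum_le_sum fun i _ => ?_)
    rw [norm_smul, ei, PiLp.norm_single, norm_one, mul_one, Real.norm_eq_abs]
    have := hx i
    rw [mem_Ico] at this
    simp only [PiLp.sub_apply]
    rw [abs_of_nonneg (by linarith)]
    linarith
  simpa using h1

/-- corner of the child `v` -/
noncomputable def chi (c : E d) (l : ℝ) (v : Fin d → Bool) : E d :=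
  WithLp.toLp 2 fun i => c i + if v i then l / 2 else 0

lemma cube_child (c : E d) {l : ℝ} (hl : 0 < l) :
    cube c l = ⋃ v : Fin d → Bool, cube (chi c l v) (l / 2) := by
  ext x
  simp only [cube, mem_ofPred_eq, mem_iUnion, chi, mem_Ico]
  constructor
  · intro h
    refine ⟨fun i => decide (c i + l / 2 ≤ x i), fun i => ?_⟩
    have := h i
    by_cases hh : c i + l / 2 ≤ x i
    · simp only [hh, decide_true]
      simp only [if_true]
      constructor <;> linarith
    · simp only [hh, decide_false]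
      push Not at hh
      rw [if_neg (by simp)]
      constructor <;> linarith
  · rintro ⟨v, h⟩ i
    have := h i
    by_cases hv : v i
    · simp only [hv, if_true] at this
      constructor <;> linarith
    · simp only [hv] at this
      simp at this
      constructor <;> linarith

lemma cube_disj (c : E d) {l : ℝ} :
    Pairwise (Function.onFun Disjoint fun v : Fin d → Bool => cube (chi c l v) (l / 2)) := by
  intro v w hvw
  rw [Function.onFun, Set.disjoint_left]
  intro x hx hx'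
  apply hvw
  funext i
  have h1 := hx i
  have h2 := hx' i
  simp only [chi, mem_Ico] at h1 h2
  by_cases hv : v i <;> by_cases hw : w i
  · rw [hv, hw]
  · simp [hv, hw] at h1 h2
    linarith
  · simp [hv, hw] at h1 h2
    linarith
  · simp at hv hw
    rw [hv, hw]

/-- convolution of `a ρ` with `κ`. -/
noncomputable def cv (ρ : Measure (E d)) (a κ : E d → ℝ) (x : E d) : ℝ :=
  ∫ y, a y * κ (x - y) ∂ρ

lemma tonelli_bound {ρ : Measure (E d)} [SFinite ρ] {a : E d → ℝ} (ha : AEMeasurable a ρ)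
    {k : E d → E d → ℝ} (hk : Measurable (Function.uncurry k)) {S Q : Set (E d)}
    (hQ : MeasurableSet Q) {B : ℝ≥0∞} (hB : ∀ y ∈ Q, ∫⁻ x in S, ‖k x y‖ₑ ≤ B) :
    ∫⁻ x in S, ∫⁻ y in Q, ‖a y‖ₑ * ‖k x y‖ₑ ∂ρ ≤ B * ∫⁻ y in Q, ‖a y‖ₑ ∂ρ := by
  have hm : AEMeasurable (Function.uncurry fun x y => ‖a y‖ₑ * ‖k x y‖ₑ)
      ((volume.restrict S).prod (ρ.restrict Q)) := by
    have h1 : AEMeasurable (fun z : E d × E d => a z.2) ((volume.restrict S).prod (ρ.restrict Q)) :=
      (ha.restrict.aestronglyMeasurable.comp_snd).aemeasurable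
    exact h1.enorm.mul hk.enorm.aemeasurable
  rw [lintegral_lintegral_swap hm]
  calc _ = ∫⁻ y in Q, (‖a y‖ₑ * ∫⁻ x in S, ‖k x y‖ₑ) ∂ρ := by
        refine lintegral_congr fun y => ?_
        rw [lintegral_const_mul]
        exact (hk.comp (measurable_id.prodMk measurable_const)).enorm
    _ ≤ ∫⁻ y in Q, ‖a y‖ₑ * B ∂ρ := setLIntegral_mono' hQ fun y hy => by
        gcongr
        exact hB y hy
    _ = _ := by
        rw [lintegral_mul_const'' _ ha.restrict.enorm, mul_comm]

lemma mul_bdd_integrable {ρ : Measure (E d)} {a κ : E d → ℝ} (ha : Integrable a ρ)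
    (hκ : Continuous κ) {B : ℝ} (hB : ∀ x, |κ x| ≤ B) (x : E d) :
    Integrable (fun y => a y * κ (x - y)) ρ :=
  ha.mul_bdd (c := B) (by fun_prop : Continuous fun y => κ (x - y)).aestronglyMeasurable
    (Eventually.of_forall fun y => by simpa using hB (x - y))

/-- estimate of one bad piece -/
lemma bad_piece {K : E d → ℝ} (hK : Continuous K) {Bk : ℝ} (hKb : ∀ x, |K x| ≤ Bk) {C δ : ℝ}
    {c : E d} {S : Set (E d)}
    (hH : ∀ y, ‖y - c‖ ≤ δ → ∫⁻ x in S, ‖K (x - y) - K (x - c)‖ₑ ≤ ENNReal.ofReal C)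
    {Q : Set (E d)} (hQm : MeasurableSet Q) (hQ : ∀ y ∈ Q, ‖y - c‖ ≤ δ)
    (hQ0 : volume Q ≠ 0) (hQt : volume Q ≠ ⊤)
    {ρ : Measure (E d)} [IsFiniteMeasure ρ] {a : E d → ℝ} (ha : Integrable a ρ) :
    ∫⁻ x in S, ‖∫ y in Q, a y * K (x - y) ∂ρ -
      cv volume (Q.indicator fun _ => (∫ y in Q, a y ∂ρ) / (volume Q).toReal) K x‖ₑ ≤
      2 * ENNReal.ofReal C * ∫⁻ y in Q, ‖a y‖ₑ ∂ρ := by
  set A : ℝ := (∫ y in Q, a y ∂ρ) / (volume Q).toReal with hA
  have hv : 0 < (volume Q).toReal := ENNReal.toReal_pos hQ0 hQt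
  have : IsFiniteMeasure (volume.restrict Q) := ⟨by
    rw [Measure.restrict_apply_univ]; exact lt_top_iff_ne_top.2 hQt⟩
  have hkm : Measurable (Function.uncurry fun x y : E d => K (x - y) - K (x - c)) := by
    have : Continuous (Function.uncurry fun x y : E d => K (x - y) - K (x - c)) := by
      unfold Function.uncurry
      fun_prop
    exact this.measurable
  have key : ∀ x, ‖∫ y in Q, a y * K (x - y) ∂ρ - cv volume (Q.indicator fun _ => A) K x‖ₑ ≤
      (∫⁻ y in Q, ‖a y‖ₑ * ‖K (x - y) - K (x - c)‖ₑ ∂ρ) +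
      ∫⁻ y in Q, ‖A‖ₑ * ‖K (x - y) - K (x - c)‖ₑ := by
    intro x
    have i1 : IntegrableOn (fun y => a y * K (x - y)) Q ρ :=
      (mul_bdd_integrable ha hK hKb x).integrableOn
    have i2 : IntegrableOn (fun y => a y * K (x - c)) Q ρ := (ha.mul_const _).integrableOn
    have i3 : IntegrableOn (fun y => A * K (x - y)) Q volume := by
      have h0 : Integrable (fun _ : E d => A) (volume.restrict Q) := integrable_const A
      exact mul_bdd_integrable h0 hK hKb x
    have i4 : IntegrableOn (fun _ : E d => A * K (x - c)) Q volume := integrable_const _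
    have e1 : cv volume (Q.indicator fun _ => A) K x = ∫ y in Q, A * K (x - y) := by
      unfold cv
      rw [← integral_indicator hQm]
      refine integral_congr_ae (Eventually.of_forall fun y => ?_)
      by_cases hy : y ∈ Q
      · simp [hy]
      · simp [hy]
    have e2 : ∫ y in Q, a y * K (x - c) ∂ρ = ∫ y in Q, A * K (x - c) := by
      rw [integral_mul_const, setIntegral_const, hA]
      unfold Measure.real
      rw [smul_eq_mul]
      field_simp
    have e3 : ∫ y in Q, a y * K (x - y) ∂ρ - cv volume (Q.indicator fun _ => A) K x =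
        (∫ y in Q, a y * (K (x - y) - K (x - c)) ∂ρ) -
          ∫ y in Q, A * (K (x - y) - K (x - c)) := by
      have h1 : ∫ y in Q, a y * (K (x - y) - K (x - c)) ∂ρ =
          (∫ y in Q, a y * K (x - y) ∂ρ) - ∫ y in Q, a y * K (x - c) ∂ρ := by
        rw [← integral_sub i1 i2]
        refine integral_congr_ae (Eventually.of_forall fun y => ?_)
        simp only
        ring
      have h2 : ∫ y in Q, A * (K (x - y) - K (x - c)) =
          (∫ y in Q, A * K (x - y)) - ∫ y in Q, A * K (x - c) := by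
        rw [← integral_sub i3 i4]
        refine integral_congr_ae (Eventually.of_forall fun y => ?_)
        simp only
        ring
      rw [h1, h2, e1, e2]
      ring
    rw [e3]
    calc _ ≤ ‖∫ y in Q, a y * (K (x - y) - K (x - c)) ∂ρ‖ₑ +
          ‖∫ y in Q, A * (K (x - y) - K (x - c))‖ₑ := enorm_sub_le
      _ ≤ (∫⁻ y in Q, ‖a y * (K (x - y) - K (x - c))‖ₑ ∂ρ) +
          ∫⁻ y in Q, ‖A * (K (x - y) - K (x - c))‖ₑ :=
        add_le_add (enorm_integral_le_lintegral_enorm _) (enorm_integral_le_lintegral_enorm _)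
      _ = _ := by simp only [enorm_mul]
  have hm2 : Measurable fun x => ∫⁻ y in Q, ‖A‖ₑ * ‖K (x - y) - K (x - c)‖ₑ :=
    Measurable.lintegral_prod_right' (f := fun z : E d × E d =>
      ‖A‖ₑ * ‖K (z.1 - z.2) - K (z.1 - c)‖ₑ) (measurable_const.mul hkm.enorm)
  calc _ ≤ ∫⁻ x in S, ((∫⁻ y in Q, ‖a y‖ₑ * ‖K (x - y) - K (x - c)‖ₑ ∂ρ) +
      ∫⁻ y in Q, ‖A‖ₑ * ‖K (x - y) - K (x - c)‖ₑ) := lintegral_mono key
    _ = (∫⁻ x in S, ∫⁻ y in Q, ‖a y‖ₑ * ‖K (x - y) - K (x - c)‖ₑ ∂ρ) +
      ∫⁻ x in S, ∫⁻ y in Q, ‖A‖ₑ * ‖K (x - y) - K (x - c)‖ₑ :=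
        lintegral_add_right _ hm2
    _ ≤ ENNReal.ofReal C * (∫⁻ y in Q, ‖a y‖ₑ ∂ρ) + ENNReal.ofReal C * ∫⁻ _ in Q, ‖A‖ₑ := by
        refine add_le_add ?_ ?_
        · exact tonelli_bound ha.aestronglyMeasurable.aemeasurable hkm hQm
            fun y hy => hH y (hQ y hy)
        · exact tonelli_bound (a := fun _ => A) aemeasurable_const hkm hQm
            fun y hy => hH y (hQ y hy)
    _ ≤ ENNReal.ofReal C * (∫⁻ y in Q, ‖a y‖ₑ ∂ρ) +
          ENNReal.ofReal C * (∫⁻ y in Q, ‖a y‖ₑ ∂ρ) := by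
        refine add_le_add le_rfl (mul_le_mul_right ?_ _)
        rw [setLIntegral_const, hA]
        calc ‖(∫ y in Q, a y ∂ρ) / (volume Q).toReal‖ₑ * volume Q
            = ‖∫ y in Q, a y ∂ρ‖ₑ := by
              rw [div_eq_mul_inv, enorm_mul, mul_assoc]
              have : ‖((volume Q).toReal)⁻¹‖ₑ * volume Q = 1 := by
                rw [Real.enorm_eq_ofReal (inv_nonneg.2 hv.le), ENNReal.ofReal_inv_of_pos hv,
                  ENNReal.ofReal_toReal hQt]
                exact ENNReal.inv_mul_cancel hQ0 hQt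
              rw [this, mul_one]
          _ ≤ _ := enorm_integral_le_lintegral_enorm _
    _ = _ := by ring

end Vale.Agent.P073.H940
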