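import Vale.Agent.P073.H940.Cz

open MeasureTheory Set Filter Topology Metric
open scoped ContDiff ENNReal

namespace Vale.Agent.P073.H940

variable {d : ℕ}

lemma cv_continuous {ρ : Measure (E d)} {a K : E d → ℝ} (ha : Integrable a ρ)
    (hK : Continuous K) {B : ℝ} (hKb : ∀ x, |K x| ≤ B) : Continuous (cv ρ a K) := by
  refine continuous_of_dominated (bound := fun y => ‖a y‖ * B) ?_ ?_ (ha.norm.mul_const B) ?_
  · intro x
    exact (mul_bdd_integrable ha hK hKb x).aestronglyMeasurable
  · intro x
    refine Eventually.of_forall fun y => ?_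
    rw [norm_mul]
    exact mul_le_mul_of_nonneg_left (hKb _) (norm_nonneg _)
  · refine Eventually.of_forall fun y => ?_
    fun_prop

lemma cv_sum {ι : Type*} (s : Finset ι) {ρ : Measure (E d)} {g : ι → E d → ℝ} {K : E d → ℝ}
    (hg : ∀ i ∈ s, Integrable (g i) ρ) (hK : Continuous K) {B : ℝ} (hKb : ∀ x, |K x| ≤ B)
    (x : E d) : cv ρ (fun y => ∑ i ∈ s, g i y) K x = ∑ i ∈ s, cv ρ (g i) K x := by
  unfold cv
  rw [← integral_finsetSum _ fun i hi => mul_bdd_integrable (hg i hi) hK hKb x]
  simp only [Finset.sum_mul]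

lemma avg_bound {c : E d} {l : ℝ} (hl : 0 < l) {ρ : Measure (E d)} {a : E d → ℝ} {B : ℝ}
    (hB : 0 ≤ B)
    (h : ∫⁻ y in cube c l, ‖a y‖ₑ ∂ρ ≤ ENNReal.ofReal (B * l ^ d)) :
    |(∫ y in cube c l, a y ∂ρ) / (volume (cube c l)).toReal| ≤ B := by
  rw [cube_vol c hl.le, ENNReal.toReal_ofReal (by positivity), abs_div,
    abs_of_pos (by positivity : 0 < l ^ d), div_le_iff₀ (by positivity)]
  have h1 : ‖∫ y in cube c l, a y ∂ρ‖ₑ ≤ ENNReal.ofReal (B * l ^ d) :=
    (enorm_integral_le_lintegral_enorm _).trans h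
  rw [Real.enorm_eq_ofReal_abs] at h1
  exact (ENNReal.ofReal_le_ofReal_iff (by positivity)).1 h1

lemma avg_int {c : E d} {l : ℝ} (hl : 0 < l) {ρ : Measure (E d)} {a : E d → ℝ} :
    ∫⁻ x, ‖(cube c l).indicator
      (fun _ => (∫ y in cube c l, a y ∂ρ) / (volume (cube c l)).toReal) x‖ₑ ≤
      ∫⁻ y in cube c l, ‖a y‖ₑ ∂ρ := by
  have hQt : volume (cube c l) ≠ ⊤ := by rw [cube_vol c hl.le]; exact ENNReal.ofReal_ne_top
  have hQ0 : volume (cube c l) ≠ 0 := by
    rw [cube_vol c hl.le]
    simp only [ne_eq, ENNReal.ofReal_eq_zero, not_le]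
    positivity
  have hv : 0 < (volume (cube c l)).toReal := ENNReal.toReal_pos hQ0 hQt
  simp only [enorm_indicator_eq_indicator_enorm]
  rw [lintegral_indicator (cube_meas c l), setLIntegral_const]
  calc ‖(∫ y in cube c l, a y ∂ρ) / (volume (cube c l)).toReal‖ₑ * volume (cube c l)
      = ‖∫ y in cube c l, a y ∂ρ‖ₑ := by
        rw [div_eq_mul_inv, enorm_mul, mul_assoc]
        have : ‖((volume (cube c l)).toReal)⁻¹‖ₑ * volume (cube c l) = 1 := by
          rw [Real.enorm_eq_ofReal (inv_nonneg.2 hv.le), ENNReal.ofReal_inv_of_pos hv,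
            ENNReal.ofReal_toReal hQt]
          exact ENNReal.inv_mul_cancel hQ0 hQt
        rw [this, mul_one]
    _ ≤ _ := enorm_integral_le_lintegral_enorm _

lemma lint_child {c : E d} {l : ℝ} (hl : 0 < l) (ρ : Measure (E d)) (f : E d → ℝ≥0∞) :
    ∫⁻ y in cube c l, f y ∂ρ = ∑ v : Fin d → Bool, ∫⁻ y in cube (chi c l v) (l / 2), f y ∂ρ := by
  rw [cube_child c hl, lintegral_iUnion (fun v => cube_meas _ _) (cube_disj c), tsum_fintype]

/-- Finite-level Calderón–Zygmund decomposition. -/
lemma cz_aux {K : E d → ℝ} (hK : Continuous K) {Bk : ℝ} (hKb : ∀ x, |K x| ≤ Bk) (hd : 0 < d)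
    {C : ℝ} {M : ℕ}
    (hH : ∀ (y c : E d) (δ : ℝ), 0 < δ → ‖y - c‖ ≤ δ → ∀ S : Set (E d), MeasurableSet S →
      ((∀ x ∈ S, 2 * δ ≤ ‖x - c‖) ∨ (2 : ℝ) ^ M * δ ≤ 1) →
      ∫⁻ x in S, ‖K (x - y) - K (x - c)‖ₑ ≤ ENNReal.ofReal C)
    {ρ : Measure (E d)} [IsFiniteMeasure ρ] {a : E d → ℝ} (ha : Integrable a ρ) {lam : ℝ}
    (hlam : 0 < lam) (n : ℕ) :
    ∀ (c : E d) (l : ℝ), 0 < l → (∫⁻ y in cube c l, ‖a y‖ₑ ∂ρ ≤ ENNReal.ofReal (lam * l ^ d)) →
      (2 : ℝ) ^ M * (d * (l / 2 ^ n)) ≤ 1 →
      ∃ (g : E d → ℝ) (V : Set (E d)), Measurable g ∧ (∀ x, |g x| ≤ 2 ^ d * lam) ∧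
        (∀ x, x ∉ cube c l → g x = 0) ∧ MeasurableSet V ∧
        (∫⁻ x, ‖g x‖ₑ ≤ ∫⁻ y in cube c l, ‖a y‖ₑ ∂ρ) ∧
        (volume V ≤ ENNReal.ofReal ((2 * d) ^ d / lam) * volume (ball (0 : E d) 1) *
          ∫⁻ y in cube c l, ‖a y‖ₑ ∂ρ) ∧
        (∫⁻ x in Vᶜ, ‖cv (ρ.restrict (cube c l)) a K x - cv volume g K x‖ₑ ≤
          2 * ENNReal.ofReal C * ∫⁻ y in cube c l, ‖a y‖ₑ ∂ρ) := by
  have hd' : (0 : ℝ) < d := by exact_mod_cast hd
  have h2d : (1 : ℝ) ≤ 2 ^ d := one_le_pow₀ (by norm_num)
  have hQt : ∀ (c : E d) (l : ℝ), 0 < l → volume (cube c l) ≠ ⊤ := fun c l hl => by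
    rw [cube_vol c hl.le]; exact ENNReal.ofReal_ne_top
  have hQ0 : ∀ (c : E d) (l : ℝ), 0 < l → volume (cube c l) ≠ 0 := fun c l hl => by
    rw [cube_vol c hl.le]
    simp only [ne_eq, ENNReal.ofReal_eq_zero, not_le]
    positivity
  induction n with
  | zero =>
    intro c l hl h1 h2
    simp only [pow_zero, div_one] at h2
    refine ⟨(cube c l).indicator
      (fun _ => (∫ y in cube c l, a y ∂ρ) / (volume (cube c l)).toReal), ∅,
      measurable_const.indicator (cube_meas c l), ?_, ?_, MeasurableSet.empty, avg_int hl, ?_, ?_⟩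
    · intro x
      by_cases hx : x ∈ cube c l
      · rw [indicator_of_mem hx]
        exact (avg_bound hl hlam.le h1).trans (by nlinarith)
      · rw [indicator_of_notMem hx, abs_zero]
        positivity
    · intro x hx
      exact indicator_of_notMem hx _
    · simp
    · refine bad_piece hK hKb (δ := d * l) (c := c) ?_ (cube_meas c l) ?_
        (hQ0 c l hl) (hQt c l hl) ha
      · intro y hy
        exact hH y c (d * l) (by positivity) hy _ MeasurableSet.empty.compl (Or.inr h2)
      · intro y hy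
        exact cube_norm hy
  | succ n ih =>
    intro c l hl h1 h2
    have hl2 : 0 < l / 2 := by positivity
    have step : ∀ v : Fin d → Bool, ∃ (g : E d → ℝ) (V : Set (E d)), Measurable g ∧
        (∀ x, |g x| ≤ 2 ^ d * lam) ∧
        (∀ x, x ∉ cube (chi c l v) (l / 2) → g x = 0) ∧ MeasurableSet V ∧
        (∫⁻ x, ‖g x‖ₑ ≤ ∫⁻ y in cube (chi c l v) (l / 2), ‖a y‖ₑ ∂ρ) ∧
        (volume V ≤ ENNReal.ofReal ((2 * d) ^ d / lam) * volume (ball (0 : E d) 1) *
          ∫⁻ y in cube (chi c l v) (l / 2), ‖a y‖ₑ ∂ρ) ∧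
        (∫⁻ x in Vᶜ, ‖cv (ρ.restrict (cube (chi c l v) (l / 2))) a K x - cv volume g K x‖ₑ ≤
          2 * ENNReal.ofReal C * ∫⁻ y in cube (chi c l v) (l / 2), ‖a y‖ₑ ∂ρ) := by
      intro v
      by_cases hs : ∫⁻ y in cube (chi c l v) (l / 2), ‖a y‖ₑ ∂ρ ≤
          ENNReal.ofReal (lam * (l / 2) ^ d)
      · refine ih (chi c l v) (l / 2) hl2 hs ?_
        have : l / 2 / 2 ^ n = l / 2 ^ (n + 1) := by
          rw [pow_succ]
          field_simp
        rw [this]
        exact h2
      · have hsub : cube (chi c l v) (l / 2) ⊆ cube c l := by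
          rw [cube_child c hl]
          exact subset_iUnion (fun v => cube (chi c l v) (l / 2)) v
        have h3 : ∫⁻ y in cube (chi c l v) (l / 2), ‖a y‖ₑ ∂ρ ≤
            ENNReal.ofReal ((2 ^ d * lam) * (l / 2) ^ d) := by
          refine (lintegral_mono_set hsub).trans (h1.trans (ENNReal.ofReal_le_ofReal ?_))
          rw [div_pow]
          field_simp
          exact le_rfl
        refine ⟨(cube (chi c l v) (l / 2)).indicator
          (fun _ => (∫ y in cube (chi c l v) (l / 2), a y ∂ρ) /
            (volume (cube (chi c l v) (l / 2))).toReal), ball (chi c l v) (2 * (d * (l / 2))),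
          measurable_const.indicator (cube_meas _ _), ?_, ?_, isOpen_ball.measurableSet,
          avg_int hl2, ?_, ?_⟩
        · intro x
          by_cases hx : x ∈ cube (chi c l v) (l / 2)
          · rw [indicator_of_mem hx]
            exact avg_bound hl2 (by positivity) h3
          · rw [indicator_of_notMem hx, abs_zero]
            positivity
        · intro x hx
          exact indicator_of_notMem hx _
        · push Not at hs
          calc volume (ball (chi c l v) (2 * (d * (l / 2))))
              ≤ volume (closedBall (chi c l v) (2 * (d * (l / 2)))) :=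
                measure_mono ball_subset_closedBall
            _ = ENNReal.ofReal ((2 * (d * (l / 2))) ^ d) * volume (ball (0 : E d) 1) :=
                volball _ (by positivity)
            _ = ENNReal.ofReal ((2 * d) ^ d / lam) * volume (ball (0 : E d) 1) *
                ENNReal.ofReal (lam * (l / 2) ^ d) := by
                have : (2 * (d * (l / 2))) ^ d = (2 * (d : ℝ)) ^ d / lam *
                    (lam * (l / 2) ^ d) := by
                  rw [← mul_assoc, mul_pow (2 * (d : ℝ)) (l / 2)]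
                  field_simp
                rw [this, ENNReal.ofReal_mul (by positivity)]
                ring
            _ ≤ _ := by gcongr
        · refine bad_piece hK hKb (δ := d * (l / 2)) (c := chi c l v) ?_ (cube_meas _ _) ?_
            (hQ0 _ _ hl2) (hQt _ _ hl2) ha
          · intro y hy
            refine hH y _ (d * (l / 2)) (by positivity) hy _ isOpen_ball.measurableSet.compl
              (Or.inl fun x hx => ?_)
            simpa [mem_ball, dist_eq_norm] using hx
          · intro y hy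
            exact cube_norm hy
    choose g V hg1 hg2 hg3 hV1 hg4 hV2 hu using step
    have hgi : ∀ v, Integrable (g v) volume := by
      intro v
      refine ⟨(hg1 v).aestronglyMeasurable, ?_⟩
      rw [HasFiniteIntegral]
      refine (hg4 v).trans_lt ?_
      exact lt_of_le_of_lt (setLIntegral_le_lintegral _ _) ha.2
    refine ⟨fun x => ∑ v, g v x, ⋃ v, V v, Finset.measurable_sum _ fun v _ => hg1 v, ?_, ?_,
      MeasurableSet.iUnion hV1, ?_, ?_, ?_⟩
    · intro x
      by_cases hx : x ∈ cube c l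
      · rw [cube_child c hl, mem_iUnion] at hx
        obtain ⟨w, hw⟩ := hx
        have : ∑ v, g v x = g w x := by
          refine Finset.sum_eq_single w (fun v _ hvw => ?_) (by simp)
          refine hg3 v x fun hxv => ?_
          exact (Set.disjoint_left.1 (cube_disj c hvw)) hxv hw
        show |∑ v, g v x| ≤ _
        rw [this]
        exact hg2 w x
      · have : ∑ v, g v x = 0 := by
          refine Finset.sum_eq_zero fun v _ => hg3 v x fun hxv => hx ?_
          rw [cube_child c hl]
          exact mem_iUnion.2 ⟨v, hxv⟩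
        show |∑ v, g v x| ≤ _
        rw [this, abs_zero]
        positivity
    · intro x hx
      refine Finset.sum_eq_zero fun v _ => hg3 v x fun hxv => hx ?_
      rw [cube_child c hl]
      exact mem_iUnion.2 ⟨v, hxv⟩
    · rw [lint_child hl]
      calc _ ≤ ∫⁻ x, ∑ v, ‖g v x‖ₑ := lintegral_mono fun x => enorm_sum_le _ _
        _ = ∑ v, ∫⁻ x, ‖g v x‖ₑ := by
            rw [lintegral_finsetSum]
            exact fun v _ => (hg1 v).enorm
        _ ≤ _ := Finset.sum_le_sum fun v _ => hg4 v
    · rw [lint_child hl, Finset.mul_sum]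
      calc _ ≤ ∑ v, volume (V v) := by
            have := measure_iUnion_le (μ := (volume : Measure (E d))) V
            rwa [tsum_fintype] at this
        _ ≤ _ := Finset.sum_le_sum fun v _ => hV2 v
    · rw [lint_child hl, Finset.mul_sum]
      have hcu : ∀ v, Continuous fun x =>
          cv (ρ.restrict (cube (chi c l v) (l / 2))) a K x - cv volume (g v) K x := fun v =>
        (cv_continuous ha.integrableOn hK hKb).sub (cv_continuous (hgi v) hK hKb)
      have e1 : ∀ x, cv (ρ.restrict (cube c l)) a K x - cv volume (fun x => ∑ v, g v x) K x =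
          ∑ v, (cv (ρ.restrict (cube (chi c l v) (l / 2))) a K x - cv volume (g v) K x) := by
        intro x
        rw [cv_sum _ (fun v _ => hgi v) hK hKb, Finset.sum_sub_distrib]
        congr 1
        unfold cv
        rw [cube_child c hl, integral_iUnion (fun v => cube_meas _ _) (cube_disj c), tsum_fintype]
        exact (mul_bdd_integrable ha hK hKb x).integrableOn
      calc _ ≤ ∫⁻ x in (⋃ v, V v)ᶜ, ∑ v,
            ‖cv (ρ.restrict (cube (chi c l v) (l / 2))) a K x - cv volume (g v) K x‖ₑ := by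
            refine lintegral_mono fun x => ?_
            rw [e1]
            exact enorm_sum_le _ _
        _ = ∑ v, ∫⁻ x in (⋃ v, V v)ᶜ,
            ‖cv (ρ.restrict (cube (chi c l v) (l / 2))) a K x - cv volume (g v) K x‖ₑ := by
            rw [lintegral_finsetSum]
            exact fun v _ => (hcu v).measurable.enorm
        _ ≤ _ := by
            refine Finset.sum_le_sum fun v _ => ?_
            refine (lintegral_mono_set ?_).trans (hu v)
            exact compl_subset_compl.2 (subset_iUnion V v)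

end Vale.Agent.P073.H940
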