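import Vale.Agent.P073.H940.Kernel

open MeasureTheory Set Filter Topology Metric
open scoped ContDiff ENNReal

namespace Vale.Agent.P073.H940

variable {d : ℕ}

lemma contDiff_pd {f : E d → ℝ} (hf : ContDiff ℝ ∞ f) (i : Fin d) : ContDiff ℝ ∞ (pd i f) :=
  (hf.fderiv_right (m := ∞) (by simp)).clm_apply contDiff_const

/-- finite sum of dilations of `θ` with weights `w`. -/
noncomputable def dil (M : ℕ) (w : ℕ → ℝ) (θ : E d → ℝ) (x : E d) : ℝ :=
  ∑ m ∈ Finset.range M, w m * θ ((2 : ℝ) ^ m • x)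

lemma dil_contDiff (M : ℕ) (w : ℕ → ℝ) {θ : E d → ℝ} (hθ : ContDiff ℝ ∞ θ) :
    ContDiff ℝ ∞ (dil M w θ) := by
  unfold dil
  refine ContDiff.sum fun m _ => contDiff_const.mul (hθ.comp ?_)
  fun_prop

lemma dil_supp (M : ℕ) (w : ℕ → ℝ) {θ : E d → ℝ} (hθ : ∀ x, 1 < ‖x‖ → θ x = 0) (x : E d)
    (hx : 1 < ‖x‖) : dil M w θ x = 0 := by
  unfold dil
  refine Finset.sum_eq_zero fun m _ => ?_
  rw [hθ, mul_zero]
  rw [norm_smul, norm_pow, Real.norm_eq_abs, abs_of_pos (by norm_num : (0 : ℝ) < 2)]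
  have : (1 : ℝ) ≤ 2 ^ m := one_le_pow₀ (by norm_num)
  nlinarith

lemma pd_supp {θ : E d → ℝ} (hθ : ∀ x, 1 < ‖x‖ → θ x = 0) (i : Fin d) (x : E d)
    (hx : 1 < ‖x‖) : pd i θ x = 0 := by
  have h : θ =ᶠ[𝓝 x] fun _ => 0 := by
    have : {y : E d | 1 < ‖y‖} ∈ 𝓝 x := (isOpen_lt continuous_const continuous_norm).mem_nhds hx
    filter_upwards [this] with y hy
    exact hθ y hy
  unfold pd
  rw [h.fderiv_eq]
  simp

lemma hasCS {θ : E d → ℝ} (hθ : ∀ x, 1 < ‖x‖ → θ x = 0) : HasCompactSupport θ :=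
  HasCompactSupport.intro (isCompact_closedBall (0 : E d) 1) fun x hx => hθ x (by simpa using hx)

lemma pd_dil (M : ℕ) (w : ℕ → ℝ) {θ : E d → ℝ} (hθ : ContDiff ℝ ∞ θ) (i : Fin d) :
    pd i (dil M w θ) = dil M (fun m => w m * 2 ^ m) (pd i θ) := by
  funext x
  unfold pd dil
  have h : ∀ m ∈ Finset.range M, HasFDerivAt (fun y : E d => w m * θ ((2 : ℝ) ^ m • y))
      (w m • ((2 : ℝ) ^ m • fderiv ℝ θ ((2 : ℝ) ^ m • x))) x := by
    intro m _
    have h1 : HasFDerivAt θ (fderiv ℝ θ ((2 : ℝ) ^ m • x)) ((2 : ℝ) ^ m • x) :=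
      (hθ.differentiable (by simp) _).hasFDerivAt
    have h2 : HasFDerivAt (fun y : E d => (2 : ℝ) ^ m • y)
        ((2 : ℝ) ^ m • ContinuousLinearMap.id ℝ (E d)) x :=
      (hasFDerivAt_id x).const_smul ((2 : ℝ) ^ m)
    have h3 := (h1.comp x h2).const_mul (w m)
    refine h3.congr_fderiv ?_
    ext v
    simp
  rw [(HasFDerivAt.fun_sum h).fderiv]
  simp only [sum_apply, smul_apply, smul_eq_mul]
  refine Finset.sum_congr rfl fun m _ => ?_
  ring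

/-- The truncated kernel. -/
noncomputable def Gam (d M : ℕ) (η : E d → ℝ) : E d → ℝ :=
  dil M (fun m => ((2 : ℝ) ^ m) ^ d / ((2 : ℝ) ^ m * 2 ^ m)) η

lemma pd_Gam (M : ℕ) {η : E d → ℝ} (hη : ContDiff ℝ ∞ η) (i : Fin d) :
    pd i (Gam d M η) = dil M (fun m => ((2 : ℝ) ^ m) ^ d / 2 ^ m) (pd i η) := by
  unfold Gam
  rw [pd_dil M _ hη i]
  congr 1
  funext m
  have : (2 : ℝ) ^ m ≠ 0 := by positivity
  field_simp

lemma pd_pd_Gam (M : ℕ) {η : E d → ℝ} (hη : ContDiff ℝ ∞ η) (i k : Fin d) :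
    pd k (pd i (Gam d M η)) = dil M (fun m => ((2 : ℝ) ^ m) ^ d) (pd k (pd i η)) := by
  rw [pd_Gam M hη i, pd_dil M _ (contDiff_pd hη i) k]
  congr 1
  funext m
  have : (2 : ℝ) ^ m ≠ 0 := by positivity
  field_simp

/-- The mollifier at scale `2^{-M}`. -/
noncomputable def mol (d M : ℕ) (φ : E d → ℝ) (x : E d) : ℝ :=
  ((2 : ℝ) ^ M) ^ d * φ ((2 : ℝ) ^ M • x)

lemma lap_Gam (M : ℕ) {η φ : E d → ℝ} (hη : ContDiff ℝ ∞ η)
    (h : ∀ x, ∑ i, pd i (pd i η) x = 2 ^ d * φ ((2 : ℝ) • x) - φ x) (x : E d) :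
    ∑ i, pd i (pd i (Gam d M η)) x = mol d M φ x - mol d 0 φ x := by
  simp only [pd_pd_Gam M hη]
  unfold dil
  rw [Finset.sum_comm]
  simp only [← Finset.mul_sum, h]
  have : ∀ m : ℕ, ((2 : ℝ) ^ m) ^ d * (2 ^ d * φ ((2 : ℝ) • (2 : ℝ) ^ m • x) - φ ((2 : ℝ) ^ m • x))
      = mol d (m + 1) φ x - mol d m φ x := by
    intro m
    unfold mol
    rw [smul_smul, ← pow_succ', mul_sub, ← mul_assoc, ← mul_pow, ← pow_succ]
  simp only [this]
  rw [Finset.sum_range_sub (fun m => mol d m φ x)]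

lemma geo (δ : ℝ) (hδ : 0 < δ) (M : ℕ) :
    ∑ m ∈ Finset.range M, (if (2 : ℝ) ^ m * δ ≤ 1 then (2 : ℝ) ^ m * δ else 0) ≤ 2 ∧
    ∑ m ∈ Finset.range M, (if (2 : ℝ) ^ m * δ ≤ 1 then (2 : ℝ) ^ m * δ else 0) ≤ 2 ^ M * δ := by
  induction M with
  | zero => simp; exact hδ.le
  | succ M ih =>
    rw [Finset.sum_range_succ, pow_succ]
    have h2 : 0 < (2 : ℝ) ^ M * δ := by positivity
    by_cases h : (2 : ℝ) ^ M * δ ≤ 1
    · rw [if_pos h]
      constructor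
      · linarith [ih.2]
      · linarith [ih.2]
    · rw [if_neg h]
      constructor
      · linarith [ih.1]
      · linarith [ih.2]

lemma volball (x : E d) {r : ℝ} (hr : 0 ≤ r) :
    volume (closedBall x r) = ENNReal.ofReal (r ^ d) * volume (ball (0 : E d) 1) := by
  rw [Measure.addHaar_closedBall volume x hr]
  simp

lemma exists_lip {θ : E d → ℝ} (hθ : ContDiff ℝ ∞ θ) (hs : ∀ x, 1 < ‖x‖ → θ x = 0) :
    ∃ L : ℝ, 0 ≤ L ∧ ∀ x y, |θ x - θ y| ≤ L * ‖x - y‖ := by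
  obtain ⟨L, hL⟩ := ContDiff.lipschitzWith_of_hasCompactSupport (hasCS hs) hθ (by simp)
  refine ⟨L, L.2, fun x y => ?_⟩
  have := hL.dist_le_mul x y
  rwa [dist_eq_norm, dist_eq_norm] at this

lemma horm_one {θ : E d → ℝ} (hs : ∀ x, 1 < ‖x‖ → θ x = 0) {L : ℝ}
    (hL0 : 0 ≤ L) (hL : ∀ x y, |θ x - θ y| ≤ L * ‖x - y‖) {m : ℕ} {y c : E d} {δ : ℝ}
    (hyc : ‖y - c‖ ≤ δ) (S : Set (E d))
    (hS : (∀ x ∈ S, 2 * δ ≤ ‖x - c‖) ∨ (2 : ℝ) ^ m * δ ≤ 1) (hSm : MeasurableSet S) :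
    ∫⁻ x in S, ‖((2 : ℝ) ^ m) ^ d * θ ((2 : ℝ) ^ m • (x - y)) -
        ((2 : ℝ) ^ m) ^ d * θ ((2 : ℝ) ^ m • (x - c))‖ₑ ≤
      ENNReal.ofReal ((L * 2 ^ d) * (if (2 : ℝ) ^ m * δ ≤ 1 then (2 : ℝ) ^ m * δ else 0)) *
        volume (ball (0 : E d) 1) := by
  have h2m : (0 : ℝ) < 2 ^ m := by positivity
  have hn : ∀ v : E d, ‖(2 : ℝ) ^ m • v‖ = 2 ^ m * ‖v‖ := fun v => by
    rw [norm_smul, norm_pow, Real.norm_eq_abs, abs_of_pos (by norm_num : (0 : ℝ) < 2)]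
  have hδ : 0 ≤ δ := le_trans (norm_nonneg _) hyc
  have htri : ∀ x : E d, ‖x - c‖ ≤ ‖x - y‖ + δ := fun x => by
    calc ‖x - c‖ = ‖(x - y) + (y - c)‖ := by congr 1; abel
      _ ≤ ‖x - y‖ + ‖y - c‖ := norm_add_le _ _
      _ ≤ _ := by linarith
  by_cases h : (2 : ℝ) ^ m * δ ≤ 1
  · rw [if_pos h]
    set C : ℝ := ((2 : ℝ) ^ m) ^ d * (L * (2 ^ m * δ)) with hC
    have hC0 : 0 ≤ C := by positivity
    have hpt : ∀ x ∈ S, ‖((2 : ℝ) ^ m) ^ d * θ ((2 : ℝ) ^ m • (x - y)) -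
        ((2 : ℝ) ^ m) ^ d * θ ((2 : ℝ) ^ m • (x - c))‖ₑ ≤
        (closedBall c (2 * (1 / 2 ^ m))).indicator (fun _ => ENNReal.ofReal C) x := by
      intro x _
      by_cases hx : x ∈ closedBall c (2 * (1 / 2 ^ m))
      · rw [indicator_of_mem hx, Real.enorm_eq_ofReal_abs]
        refine ENNReal.ofReal_le_ofReal ?_
        rw [← mul_sub, abs_mul, abs_of_pos (by positivity : (0 : ℝ) < (2 ^ m) ^ d), hC]
        refine mul_le_mul_of_nonneg_left ?_ (by positivity)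
        refine (hL _ _).trans (mul_le_mul_of_nonneg_left ?_ hL0)
        rw [← smul_sub, hn]
        refine mul_le_mul_of_nonneg_left ?_ h2m.le
        have : x - y - (x - c) = -(y - c) := by abel
        rw [this, norm_neg]
        exact hyc
      · rw [indicator_of_notMem hx]
        have hx' : 2 * (1 / 2 ^ m) < ‖x - c‖ := by
          simpa [mem_closedBall, dist_eq_norm] using hx
        have hx2 : 2 < 2 ^ m * ‖x - c‖ := by
          have := mul_lt_mul_of_pos_left hx' h2m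
          calc (2 : ℝ) = 2 ^ m * (2 * (1 / 2 ^ m)) := by field_simp
            _ < _ := this
        have h1 : θ ((2 : ℝ) ^ m • (x - c)) = 0 := hs _ (by rw [hn]; linarith)
        have h3 : θ ((2 : ℝ) ^ m • (x - y)) = 0 := hs _ (by
          rw [hn]
          have := mul_le_mul_of_nonneg_left (htri x) h2m.le
          nlinarith)
        rw [h1, h3]
        simp
    calc _ ≤ ∫⁻ x in S, (closedBall c (2 * (1 / 2 ^ m))).indicator
          (fun _ => ENNReal.ofReal C) x := setLIntegral_mono' hSm hpt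
      _ ≤ ∫⁻ x, (closedBall c (2 * (1 / 2 ^ m))).indicator
          (fun _ => ENNReal.ofReal C) x := setLIntegral_le_lintegral _ _
      _ = ENNReal.ofReal C * volume (closedBall c (2 * (1 / 2 ^ m))) := by
          rw [lintegral_indicator_const isClosed_closedBall.measurableSet]
      _ = ENNReal.ofReal (C * (2 * (1 / 2 ^ m)) ^ d) * volume (ball (0 : E d) 1) := by
          rw [volball c (by positivity), ← mul_assoc, ← ENNReal.ofReal_mul hC0]
      _ = _ := by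
          congr 2
          rw [hC, mul_pow, one_div, inv_pow]
          field_simp
  · rw [if_neg h]
    have hS' : ∀ x ∈ S, 2 * δ ≤ ‖x - c‖ := hS.resolve_right h
    push Not at h
    have hpt : ∀ x ∈ S, ‖((2 : ℝ) ^ m) ^ d * θ ((2 : ℝ) ^ m • (x - y)) -
        ((2 : ℝ) ^ m) ^ d * θ ((2 : ℝ) ^ m • (x - c))‖ₑ ≤ 0 := by
      intro x hx
      have hx' := hS' x hx
      have h1 : θ ((2 : ℝ) ^ m • (x - c)) = 0 := hs _ (by
        rw [hn]
        have := mul_le_mul_of_nonneg_left hx' h2m.le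
        nlinarith)
      have h3 : θ ((2 : ℝ) ^ m • (x - y)) = 0 := hs _ (by
        rw [hn]
        have h4 : δ ≤ ‖x - y‖ := by linarith [htri x]
        have := mul_le_mul_of_nonneg_left h4 h2m.le
        linarith)
      rw [h1, h3]
      simp
    calc _ ≤ ∫⁻ x in S, (0 : ℝ≥0∞) := setLIntegral_mono' hSm hpt
      _ = 0 := by simp
      _ ≤ _ := bot_le

/-- Hörmander's condition, uniform in `M`. -/
theorem hormander {θ : E d → ℝ} (hθ : ContDiff ℝ ∞ θ) (hs : ∀ x, 1 < ‖x‖ → θ x = 0) :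
    ∃ C : ℝ, 0 ≤ C ∧ ∀ (M : ℕ) (y c : E d) (δ : ℝ), 0 < δ → ‖y - c‖ ≤ δ →
      ∀ S : Set (E d), MeasurableSet S → ((∀ x ∈ S, 2 * δ ≤ ‖x - c‖) ∨ (2 : ℝ) ^ M * δ ≤ 1) →
      ∫⁻ x in S, ‖dil M (fun m => ((2 : ℝ) ^ m) ^ d) θ (x - y) -
        dil M (fun m => ((2 : ℝ) ^ m) ^ d) θ (x - c)‖ₑ ≤ ENNReal.ofReal C := by
  obtain ⟨L, hL0, hL⟩ := exists_lip hθ hs
  refine ⟨L * 2 ^ d * 2 * (volume (ball (0 : E d) 1)).toReal, by positivity, ?_⟩
  intro M y c δ hδ hyc S hSm hS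
  have hcont : ∀ (m : ℕ) (z : E d), Measurable fun x : E d =>
      ((2 : ℝ) ^ m) ^ d * θ ((2 : ℝ) ^ m • (x - z)) := fun m z => by
    have := hθ.continuous
    fun_prop
  calc _ ≤ ∫⁻ x in S, ∑ m ∈ Finset.range M, ‖((2 : ℝ) ^ m) ^ d * θ ((2 : ℝ) ^ m • (x - y)) -
        ((2 : ℝ) ^ m) ^ d * θ ((2 : ℝ) ^ m • (x - c))‖ₑ := by
        refine lintegral_mono fun x => ?_
        unfold dil
        rw [← Finset.sum_sub_distrib]
        exact enorm_sum_le _ _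
    _ = ∑ m ∈ Finset.range M, ∫⁻ x in S, ‖((2 : ℝ) ^ m) ^ d * θ ((2 : ℝ) ^ m • (x - y)) -
        ((2 : ℝ) ^ m) ^ d * θ ((2 : ℝ) ^ m • (x - c))‖ₑ := by
        rw [lintegral_finsetSum]
        intro m _
        exact ((hcont m y).sub (hcont m c)).enorm
    _ ≤ ∑ m ∈ Finset.range M, ENNReal.ofReal ((L * 2 ^ d) *
        (if (2 : ℝ) ^ m * δ ≤ 1 then (2 : ℝ) ^ m * δ else 0)) * volume (ball (0 : E d) 1) := by
        refine Finset.sum_le_sum fun m hm => horm_one hs hL0 hL hyc S ?_ hSm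
        refine hS.imp id fun h => ?_
        have hmM : m ≤ M := (Finset.mem_range.1 hm).le
        have : (2 : ℝ) ^ m ≤ 2 ^ M := pow_le_pow_right₀ (by norm_num) hmM
        exact (mul_le_mul_of_nonneg_right this hδ.le).trans h
    _ = ENNReal.ofReal (∑ m ∈ Finset.range M, (L * 2 ^ d) *
        (if (2 : ℝ) ^ m * δ ≤ 1 then (2 : ℝ) ^ m * δ else 0)) * volume (ball (0 : E d) 1) := by
        rw [← Finset.sum_mul, ENNReal.ofReal_sum_of_nonneg]
        intro m _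
        split_ifs <;> positivity
    _ ≤ ENNReal.ofReal (L * 2 ^ d * 2) * volume (ball (0 : E d) 1) := by
        gcongr
        rw [← Finset.mul_sum]
        exact mul_le_mul_of_nonneg_left (geo δ hδ M).1 (by positivity)
    _ = _ := by
        rw [ENNReal.ofReal_mul (p := L * 2 ^ d * 2) (by positivity),
          ENNReal.ofReal_toReal measure_ball_lt_top.ne]

end Vale.Agent.P073.H940
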