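import Vale.Agent.P073.H940.Pde

open MeasureTheory Set Filter Topology Metric
open scoped ContDiff ENNReal Convolution Manifold

namespace Vale.Agent.P073.H940

variable {d : ℕ}

/-- cut-off functions -/
lemma exists_cutoff {K W : Set (E d)} (hK : IsCompact K) (hW : IsOpen W) (hKW : K ⊆ W) :
    ∃ χ : E d → ℝ, ContDiff ℝ ∞ χ ∧ HasCompactSupport χ ∧ tsupport χ ⊆ W ∧
      (∀ x, 0 ≤ χ x) ∧ (∀ x, χ x ≤ 1) ∧ ∀ x ∈ K, χ x = 1 := by
  obtain ⟨K1, hK1, hKK1, hK1W⟩ := exists_compact_between hK hW hKW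
  obtain ⟨f, hf0, hf1, hf⟩ := exists_contMDiffMap_zero_one_of_isClosed (n := ⊤)
    𝓘(ℝ, E d) (s := (interior K1)ᶜ) (t := K) isOpen_interior.isClosed_compl hK.isClosed
    (by
      rw [Set.disjoint_left]
      intro x hx hxK
      exact hx (hKK1 hxK))
  have hsupp : tsupport f ⊆ K1 := by
    refine closure_minimal ?_ hK1.isClosed
    intro x hx
    by_contra hxK
    exact hx (hf0 (fun hxi => hxK (interior_subset hxi)))
  refine ⟨f, contMDiff_iff_contDiff.1 f.contMDiff, ?_, hsupp.trans hK1W,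
    fun x => (hf x).1, fun x => (hf x).2, fun x hx => hf1 hx⟩
  exact HasCompactSupport.of_support_subset_isCompact hK1 (subset_closure.trans hsupp)

/-- total size of the errors -/
noncomputable def Sz (s : Fin d → E d → E d) (x : E d) : ℝ :=
  ∑ p : Fin d × Fin d, |s p.1 x p.2|

lemma Sz_nonneg (s : Fin d → E d → E d) (x : E d) : 0 ≤ Sz s x :=
  Finset.sum_nonneg fun _ _ => abs_nonneg _

lemma Sz_integrable {ρ : Measure (E d)} {s : Fin d → E d → E d} (hs : ∀ i, Integrable (s i) ρ) :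
    Integrable (Sz s) ρ :=
  integrable_finsetSum _ fun p _ => (int_coord (hs p.1) p.2).abs

/-- **Linear estimate on Lebesgue null sets.** -/
theorem linear_est (hd : 0 < d) : ∃ C : ℝ, 0 ≤ C ∧ ∀ (Om : Set (E d)), IsOpen Om →
    ∀ (ρ : Measure (E d)) [IsFiniteMeasure ρ] (n : E d → ℝ) (s : Fin d → E d → E d)
    (b : Fin d → E d → ℝ), Integrable n ρ → (∀ x, 0 ≤ n x) → (∀ i, Integrable (s i) ρ) →
    (∀ i, Integrable (b i) ρ) → Eqn Om ρ n s b → ∀ N : Set (E d), MeasurableSet N →
    volume N = 0 → N ⊆ Om →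
    ∫⁻ x in N, ENNReal.ofReal (n x) ∂ρ ≤
      ENNReal.ofReal C * ∫⁻ x in N, ENNReal.ofReal (Sz s x) ∂ρ := by
  obtain ⟨C, hC, hest⟩ := est_chi hd
  refine ⟨C, hC, ?_⟩
  intro Om hOm ρ _ n s b hn hn0 hs hb heq N hN hN0 hNOm
  set μS : Measure (E d) := ρ.withDensity fun x => ENNReal.ofReal (Sz s x) with hμS
  set μn : Measure (E d) := ρ.withDensity fun x => ENNReal.ofReal (n x) with hμn
  have hSfin : IsFiniteMeasure μS := by
    refine isFiniteMeasure_withDensity ?_
    exact (Sz_integrable hs).lintegral_lt_top.ne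
  have hnfin : IsFiniteMeasure μn := by
    refine isFiniteMeasure_withDensity ?_
    exact hn.lintegral_lt_top.ne
  have hcm : ∀ (g κ : E d → ℝ), Integrable g ρ → Continuous κ → HasCompactSupport κ →
      Integrable (fun y => κ y * g y) ρ := fun g κ hg hκ hc => by
    obtain ⟨B, hB⟩ := bdd_of hκ hc
    have := hg.mul_bdd (c := B) hκ.aestronglyMeasurable
      (Eventually.of_forall fun y => by simpa using hB y)
    simpa [mul_comm] using this
  -- step 1: compact null sets and open neighbourhoods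
  have h1 : ∀ K W : Set (E d), IsCompact K → volume K = 0 → IsOpen W → K ⊆ W → W ⊆ Om →
      μn K ≤ ENNReal.ofReal C * μS W := by
    intro K W hK hK0 hW hKW hWOm
    obtain ⟨χ, hχ, hχc, hχs, hχ0, hχ1, hχK⟩ := exists_cutoff hK hW hKW
    have h := hest Om ρ n s b hn hn0 hs hb heq χ hχ hχc (hχs.trans hWOm) hχ0 K hK hK0
    have e1 : ∫ y in K, χ y * n y ∂ρ = ∫ y in K, n y ∂ρ := by
      refine setIntegral_congr_fun hK.measurableSet fun y hy => ?_
      show χ y * n y = n y
      rw [hχK y hy, one_mul]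
    have hi : ∀ p : Fin d × Fin d, Integrable (fun y => |χ y * s p.1 y p.2|) ρ := fun p =>
      (hcm _ χ (int_coord (hs p.1) p.2) hχ.continuous hχc).abs
    have e2 : ∑ p : Fin d × Fin d, ∫ y, |χ y * s p.1 y p.2| ∂ρ ≤ ∫ y in W, Sz s y ∂ρ := by
      rw [← integral_finsetSum _ fun p _ => hi p]
      have h0 : ∀ y, y ∉ W → ∑ p : Fin d × Fin d, |χ y * s p.1 y p.2| = 0 := fun y hy => by
        have : χ y = 0 := by
          by_contra hne
          exact hy (hχs (subset_tsupport _ (Function.mem_support.2 hne)))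
        simp [this]
      rw [← setIntegral_eq_integral_of_forall_compl_eq_zero h0]
      refine integral_mono (integrable_finsetSum _ fun p _ => hi p).integrableOn
        (Sz_integrable hs).integrableOn fun y => ?_
      refine Finset.sum_le_sum fun p _ => ?_
      rw [abs_mul, abs_of_nonneg (hχ0 y)]
      exact mul_le_of_le_one_left (abs_nonneg _) (hχ1 y)
    rw [e1] at h
    have e3 : μn K = ENNReal.ofReal (∫ y in K, n y ∂ρ) := by
      rw [hμn, withDensity_apply _ hK.measurableSet,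
        ofReal_integral_eq_lintegral_ofReal hn.integrableOn (Eventually.of_forall hn0)]
    have e4 : μS W = ENNReal.ofReal (∫ y in W, Sz s y ∂ρ) := by
      rw [hμS, withDensity_apply _ hW.measurableSet,
        ofReal_integral_eq_lintegral_ofReal (Sz_integrable hs).integrableOn
          (Eventually.of_forall (Sz_nonneg s))]
    rw [e3, e4, ← ENNReal.ofReal_mul hC]
    exact ENNReal.ofReal_le_ofReal (h.trans (mul_le_mul_of_nonneg_left e2 hC))
  -- step 2: compact null sets
  have h2 : ∀ K : Set (E d), IsCompact K → volume K = 0 → K ⊆ Om →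
      μn K ≤ ENNReal.ofReal C * μS K := by
    intro K hK hK0 hKOm
    have h3 : ∀ ε : ℝ≥0∞, ε ≠ 0 → μn K ≤ ENNReal.ofReal C * (μS K + ε) := by
      intro ε hε
      obtain ⟨U, hKU, hU, hUle⟩ := K.exists_isOpen_le_add μS hε
      refine (h1 K (U ∩ Om) hK hK0 (hU.inter hOm) (subset_inter hKU hKOm)
        inter_subset_right).trans ?_
      gcongr
      exact (measure_mono inter_subset_left).trans hUle
    have hlim : Tendsto (fun m : ℕ => ENNReal.ofReal C * (μS K + ((m : ℝ≥0∞) + 1)⁻¹)) atTop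
        (𝓝 (ENNReal.ofReal C * (μS K + 0))) := by
      refine ENNReal.Tendsto.const_mul ?_ (Or.inr ENNReal.ofReal_ne_top)
      refine tendsto_const_nhds.add ?_
      have h5 : Tendsto (fun m : ℕ => ((m + 1 : ℕ) : ℝ≥0∞)⁻¹) atTop (𝓝 0) :=
        ENNReal.tendsto_inv_nat_nhds_zero.comp (tendsto_add_atTop_nat 1)
      simpa using h5
    rw [add_zero] at hlim
    refine ge_of_tendsto' hlim fun m => h3 _ ?_
    simp
  -- step 3: inner regularity
  rw [← withDensity_apply _ hN, ← withDensity_apply _ hN]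
  show μn N ≤ ENNReal.ofReal C * μS N
  refine le_of_forall_lt fun r hr => ?_
  obtain ⟨K, hKN, hK, hrK⟩ := hN.exists_lt_isCompact_of_ne_top (measure_ne_top μn N) hr
  refine hrK.trans_le ((h2 K hK (measure_mono_null hKN hN0) (hKN.trans hNOm)).trans ?_)
  gcongr

/-- pointwise form -/
theorem linear_est_ae (hd : 0 < d) : ∃ C : ℝ, 0 ≤ C ∧ ∀ (Om : Set (E d)), IsOpen Om →
    ∀ (ρ : Measure (E d)) [IsFiniteMeasure ρ] (n : E d → ℝ) (s : Fin d → E d → E d)
    (b : Fin d → E d → ℝ), Integrable n ρ → (∀ x, 0 ≤ n x) → (∀ i, Integrable (s i) ρ) →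
    (∀ i, Integrable (b i) ρ) → Eqn Om ρ n s b → ∀ N : Set (E d), MeasurableSet N →
    volume N = 0 → N ⊆ Om → ∀ᵐ x ∂ρ, x ∈ N → n x ≤ C * Sz s x := by
  obtain ⟨C, hC, hest⟩ := linear_est hd
  refine ⟨C, hC, ?_⟩
  intro Om hOm ρ _ n s b hn hn0 hs hb heq N hN hN0 hNOm
  rw [← ae_restrict_iff' hN]
  have hSm : AEMeasurable (Sz s) ρ := (Sz_integrable hs).aestronglyMeasurable.aemeasurable
  have h : (fun x => ENNReal.ofReal (n x)) ≤ᵐ[ρ.restrict N]
      fun x => ENNReal.ofReal C * ENNReal.ofReal (Sz s x) := by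
    refine ae_le_of_forall_setLIntegral_le_of_sigmaFinite₀
      hn.aestronglyMeasurable.aemeasurable.restrict.ennreal_ofReal ?_
    intro t ht _
    rw [Measure.restrict_restrict ht]
    have h1 := hest Om hOm ρ n s b hn hn0 hs hb heq (t ∩ N) (ht.inter hN)
      (measure_mono_null inter_subset_right hN0) (inter_subset_right.trans hNOm)
    rw [lintegral_const_mul'' _ hSm.restrict.ennreal_ofReal]
    exact h1
  filter_upwards [h] with x hx
  rw [← ENNReal.ofReal_mul hC] at hx
  exact (ENNReal.ofReal_le_ofReal_iff (mul_nonneg hC (Sz_nonneg s x))).1 hx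

end Vale.Agent.P073.H940
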