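import Vale.Agent.P073.H940.Core

open MeasureTheory Set Filter Topology Metric
open scoped ContDiff ENNReal Convolution

namespace Vale.Agent.P073.H940

variable {d : ℕ}

lemma geo2 (m0 M : ℕ) : ∑ m ∈ Finset.range M, (if m < m0 then (0 : ℝ) else (1 / 2) ^ m) ≤
    2 * (1 / 2) ^ m0 - 2 * (1 / 2) ^ (max M m0) := by
  induction M with
  | zero => simp
  | succ M ih =>
    rw [Finset.sum_range_succ]
    by_cases h : M < m0
    · rw [if_pos h, add_zero, max_eq_right (by omega : M + 1 ≤ m0)]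
      rwa [max_eq_right h.le] at ih
    · rw [if_neg h, max_eq_left (by omega : m0 ≤ M + 1), pow_succ]
      rw [max_eq_left (not_lt.1 h)] at ih
      linarith

lemma sum_split (c : ℕ → ℝ) (hc : ∀ m, 0 ≤ c m) {δ T : ℝ} (hδ : 0 ≤ δ) (hT : 0 ≤ T) (m0 M : ℕ) :
    ∑ m ∈ Finset.range M, (if m < m0 then c m * δ else (1 / 2) ^ m * T) ≤
      (∑ m ∈ Finset.range m0, c m) * δ + 2 * (1 / 2) ^ m0 * T := by
  have e : ∑ m ∈ Finset.range M, (if m < m0 then c m * δ else (1 / 2) ^ m * T) =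
      ∑ m ∈ Finset.range M, (if m < m0 then c m * δ else 0) +
      (∑ m ∈ Finset.range M, (if m < m0 then (0 : ℝ) else (1 / 2) ^ m)) * T := by
    rw [Finset.sum_mul, ← Finset.sum_add_distrib]
    refine Finset.sum_congr rfl fun m _ => ?_
    split_ifs <;> ring
  rw [e]
  refine add_le_add ?_ (mul_le_mul_of_nonneg_right ?_ hT)
  · rw [← Finset.sum_filter, Finset.sum_mul]
    refine Finset.sum_le_sum_of_subset_of_nonneg ?_ fun m _ _ => mul_nonneg (hc m) hδ
    intro m hm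
    simp only [Finset.mem_filter, Finset.mem_range] at hm ⊢
    exact hm.2
  · refine (geo2 m0 M).trans ?_
    have : (0 : ℝ) ≤ 2 * (1 / 2) ^ (max M m0) := by positivity
    linarith

lemma equi_kernel {θ : E d → ℝ} (hθ : Continuous θ) (hs : HasCompactSupport θ) {τ : ℝ}
    (hτ : 0 < τ) : ∃ δ : ℝ, 0 < δ ∧ ∀ (M : ℕ) (y : E d) (W : Set (E d)),
      volume W ≤ ENNReal.ofReal δ →
      ∫⁻ x in W, ‖dil M (fun m => ((2 : ℝ) ^ m) ^ d / 2 ^ m) θ (x - y)‖ₑ ≤ ENNReal.ofReal τ := by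
  obtain ⟨B, hB⟩ := bdd_of hθ hs
  have hB0 : 0 ≤ B := (abs_nonneg _).trans (hB 0)
  set T : ℝ := ∫ x, |θ x| with hT
  have hT0 : 0 ≤ T := integral_nonneg fun x => abs_nonneg _
  have hθi : Integrable θ := hθ.integrable_of_hasCompactSupport hs
  obtain ⟨m0, hm0⟩ : ∃ m0 : ℕ, (1 / 2 : ℝ) ^ m0 < τ / (4 * (T + 1)) :=
    exists_pow_lt_of_lt_one (by positivity) (by norm_num)
  set S0 : ℝ := ∑ m ∈ Finset.range m0, ((2 : ℝ) ^ m) ^ d * B with hS0
  have hS00 : 0 ≤ S0 := Finset.sum_nonneg fun m _ => by positivity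
  refine ⟨τ / (2 * (S0 + 1)), by positivity, ?_⟩
  intro M y W hW
  set δ := τ / (2 * (S0 + 1)) with hδ
  have hδ0 : 0 < δ := by positivity
  have hm : ∀ m : ℕ, Measurable fun x : E d =>
      ((2 : ℝ) ^ m) ^ d / 2 ^ m * θ ((2 : ℝ) ^ m • (x - y)) := fun m => by fun_prop
  have b1 : ∀ m : ℕ, ∫⁻ x in W, ‖((2 : ℝ) ^ m) ^ d / 2 ^ m * θ ((2 : ℝ) ^ m • (x - y))‖ₑ ≤
      ENNReal.ofReal (((2 : ℝ) ^ m) ^ d * B * δ) := by
    intro m
    calc _ ≤ ∫⁻ _ in W, ENNReal.ofReal (((2 : ℝ) ^ m) ^ d * B) := by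
          refine lintegral_mono fun x => ?_
          rw [Real.enorm_eq_ofReal_abs]
          refine ENNReal.ofReal_le_ofReal ?_
          rw [abs_mul, abs_of_pos (by positivity : (0 : ℝ) < ((2 : ℝ) ^ m) ^ d / 2 ^ m)]
          have h2m : (1 : ℝ) ≤ 2 ^ m := one_le_pow₀ (by norm_num)
          have h1 : ((2 : ℝ) ^ m) ^ d / 2 ^ m ≤ ((2 : ℝ) ^ m) ^ d := div_le_self (by positivity) h2m
          exact mul_le_mul h1 (hB _) (abs_nonneg _) (by positivity)
      _ = ENNReal.ofReal (((2 : ℝ) ^ m) ^ d * B) * volume W := by rw [setLIntegral_const]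
      _ ≤ ENNReal.ofReal (((2 : ℝ) ^ m) ^ d * B) * ENNReal.ofReal δ := by gcongr
      _ = _ := by rw [← ENNReal.ofReal_mul (by positivity)]
  have b2 : ∀ m : ℕ, ∫⁻ x in W, ‖((2 : ℝ) ^ m) ^ d / 2 ^ m * θ ((2 : ℝ) ^ m • (x - y))‖ₑ ≤
      ENNReal.ofReal ((1 / 2) ^ m * T) := by
    intro m
    have h2m : (2 : ℝ) ^ m ≠ 0 := by positivity
    have i1 : Integrable fun x : E d => θ ((2 : ℝ) ^ m • x) := hθi.comp_smul h2m
    have i2 : Integrable fun x : E d => ((2 : ℝ) ^ m) ^ d / 2 ^ m * θ ((2 : ℝ) ^ m • (x - y)) :=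
      (i1.comp_sub_right y).const_mul _
    have h1 := ofReal_integral_norm_eq_lintegral_enorm i2
    refine (setLIntegral_le_lintegral _ _).trans (le_of_eq ?_)
    rw [← h1]
    congr 1
    simp only [norm_mul, Real.norm_eq_abs]
    rw [integral_const_mul, integral_sub_right_eq_self (fun x => |θ ((2 : ℝ) ^ m • x)|) y,
      Measure.integral_comp_smul volume (fun x => |θ x|) ((2 : ℝ) ^ m)]
    simp only [finrank_euclideanSpace, Fintype.card_fin, smul_eq_mul]
    rw [abs_of_pos (by positivity : (0 : ℝ) < ((2 : ℝ) ^ m) ^ d / 2 ^ m),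
      abs_of_pos (by positivity : (0 : ℝ) < (((2 : ℝ) ^ m) ^ d)⁻¹), ← hT, one_div, inv_pow]
    field_simp
  calc _ ≤ ∫⁻ x in W, ∑ m ∈ Finset.range M,
        ‖((2 : ℝ) ^ m) ^ d / 2 ^ m * θ ((2 : ℝ) ^ m • (x - y))‖ₑ := by
        refine lintegral_mono fun x => ?_
        unfold dil
        exact enorm_sum_le _ _
    _ = ∑ m ∈ Finset.range M, ∫⁻ x in W,
        ‖((2 : ℝ) ^ m) ^ d / 2 ^ m * θ ((2 : ℝ) ^ m • (x - y))‖ₑ := by
        rw [lintegral_finsetSum]
        exact fun m _ => (hm m).enorm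
    _ ≤ ∑ m ∈ Finset.range M, ENNReal.ofReal
        (if m < m0 then ((2 : ℝ) ^ m) ^ d * B * δ else (1 / 2) ^ m * T) := by
        refine Finset.sum_le_sum fun m _ => ?_
        split_ifs
        · exact b1 m
        · exact b2 m
    _ = ENNReal.ofReal (∑ m ∈ Finset.range M,
        (if m < m0 then ((2 : ℝ) ^ m) ^ d * B * δ else (1 / 2) ^ m * T)) := by
        rw [ENNReal.ofReal_sum_of_nonneg]
        intro m _
        split_ifs <;> positivity
    _ ≤ _ := by
        refine ENNReal.ofReal_le_ofReal ?_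
        refine (sum_split (fun m => ((2 : ℝ) ^ m) ^ d * B) (fun m => by positivity) hδ0.le hT0
          m0 M).trans ?_
        rw [← hS0]
        have h1 : S0 * δ ≤ τ / 2 := by
          rw [hδ]
          calc S0 * (τ / (2 * (S0 + 1))) = τ / 2 * (S0 / (S0 + 1)) := by field_simp
            _ ≤ τ / 2 * 1 := by
                refine mul_le_mul_of_nonneg_left ?_ (by positivity)
                rw [div_le_one (by positivity)]
                linarith
            _ = _ := mul_one _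
        have h2 : 2 * (1 / 2 : ℝ) ^ m0 * T ≤ τ / 2 := by
          calc 2 * (1 / 2 : ℝ) ^ m0 * T ≤ 2 * (τ / (4 * (T + 1))) * T := by gcongr
            _ = τ / 2 * (T / (T + 1)) := by field_simp; ring
            _ ≤ τ / 2 * 1 := by
                refine mul_le_mul_of_nonneg_left ?_ (by positivity)
                rw [div_le_one (by positivity)]
                linarith
            _ = _ := mul_one _
        linarith

lemma cv_set_bound {ρ : Measure (E d)} [IsFiniteMeasure ρ] {h κ : E d → ℝ} (hh : Integrable h ρ)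
    (hκ : Continuous κ) (hκi : Integrable κ) {W : Set (E d)} {τ : ℝ} (hτ : 0 ≤ τ)
    (hb : ∀ y, ∫⁻ x in W, ‖κ (x - y)‖ₑ ≤ ENNReal.ofReal τ) :
    ∫ x in W, |cv ρ h κ x| ≤ τ * ∫ y, |h y| ∂ρ := by
  have hA0 : 0 ≤ ∫ y, |h y| ∂ρ := integral_nonneg fun y => abs_nonneg _
  have hci := cv_integrable (ρ := ρ) hh hκi
  have h1 := ofReal_integral_norm_eq_lintegral_enorm (μ := volume.restrict W) hci.integrableOn
  have h2 := ofReal_integral_norm_eq_lintegral_enorm hh
  have h3 : ENNReal.ofReal (∫ x in W, |cv ρ h κ x|) ≤ ENNReal.ofReal (τ * ∫ y, |h y| ∂ρ) := by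
    calc _ = ∫⁻ x in W, ‖cv ρ h κ x‖ₑ := by simpa using h1
      _ ≤ ∫⁻ x in W, ∫⁻ y in univ, ‖h y‖ₑ * ‖κ (x - y)‖ₑ ∂ρ := by
          refine lintegral_mono fun x => ?_
          rw [Measure.restrict_univ]
          refine (enorm_integral_le_lintegral_enorm _).trans (le_of_eq ?_)
          simp only [enorm_mul]
      _ ≤ ENNReal.ofReal τ * ∫⁻ y in univ, ‖h y‖ₑ ∂ρ := by
          refine tonelli_bound hh.aestronglyMeasurable.aemeasurable
            (k := fun x y => κ (x - y)) ?_ MeasurableSet.univ fun y _ => hb y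
          have : Continuous (Function.uncurry fun x y : E d => κ (x - y)) := by
            unfold Function.uncurry
            fun_prop
          exact this.measurable
      _ = ENNReal.ofReal τ * ENNReal.ofReal (∫ y, |h y| ∂ρ) := by
          rw [Measure.restrict_univ, ← h2]
          simp
      _ = _ := by rw [← ENNReal.ofReal_mul hτ]
  exact (ENNReal.ofReal_le_ofReal_iff (by positivity)).1 h3

/-- the lower order part is equi-integrable -/
theorem equi_r (k : Ker d) {H τ : ℝ} (hH : 0 ≤ H) (hτ : 0 < τ) : ∃ δ : ℝ, 0 < δ ∧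
    ∀ (M : ℕ) (ρ : Measure (E d)) [IsFiniteMeasure ρ] (h0 : E d → ℝ) (h : Fin d → E d → ℝ),
    Integrable h0 ρ → (∀ i, Integrable (h i) ρ) →
    ((∫ y, |h0 y| ∂ρ) + ∑ i, ∫ y, |h i y| ∂ρ ≤ H) →
    ∀ W : Set (E d), MeasurableSet W → volume W ≤ ENNReal.ofReal δ →
    ∫ x in W, |cv ρ h0 (mol d 0 k.φ) x + ∑ i, cv ρ (h i) (pd i (Gam d M k.η)) x| ≤ τ := by
  set τ' : ℝ := τ / (H + 1) with hτ'
  have hτ'0 : 0 < τ' := by positivity
  have h1 : ∀ i : Fin d, ∃ δ : ℝ, 0 < δ ∧ ∀ (M : ℕ) (y : E d) (W : Set (E d)),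
      volume W ≤ ENNReal.ofReal δ →
      ∫⁻ x in W, ‖dil M (fun m => ((2 : ℝ) ^ m) ^ d / 2 ^ m) (pd i k.η) (x - y)‖ₑ ≤
        ENNReal.ofReal τ' := fun i =>
    equi_kernel (contDiff_pd k.hη i).continuous (pd_cs (hasCS k.hsη) i) hτ'0
  choose δi hδi hδi2 using h1
  have hφc : Continuous (mol d 0 k.φ) := mol_continuous k.hφ.continuous 0
  have hφs : HasCompactSupport (mol d 0 k.φ) := hasCS (mol_supp' k.hsφ 0)
  obtain ⟨B, hB⟩ := bdd_of hφc hφs
  have hB0 : 0 ≤ B := (abs_nonneg _).trans (hB 0)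
  obtain ⟨δ1, hδ1, hδ1'⟩ : ∃ δ1 : ℝ, 0 < δ1 ∧ ∀ i, δ1 ≤ δi i := by
    by_cases hne : Nonempty (Fin d)
    · refine ⟨Finset.univ.inf' Finset.univ_nonempty δi, ?_, fun i =>
        Finset.inf'_le _ (Finset.mem_univ i)⟩
      rw [Finset.lt_inf'_iff]
      exact fun i _ => hδi i
    · exact ⟨1, one_pos, fun i => (hne ⟨i⟩).elim⟩
  refine ⟨min δ1 (τ' / (B + 1)), lt_min hδ1 (by positivity), ?_⟩
  intro M ρ _ h0 h hh0 hh hsum W hWm hW
  have hW1 : ∀ i, volume W ≤ ENNReal.ofReal (δi i) := fun i =>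
    hW.trans (ENNReal.ofReal_le_ofReal ((min_le_left _ _).trans (hδ1' i)))
  have hW2 : volume W ≤ ENNReal.ofReal (τ' / (B + 1)) :=
    hW.trans (ENNReal.ofReal_le_ofReal (min_le_right _ _))
  have cG : ∀ i, Continuous (pd i (Gam d M k.η)) := fun i =>
    (contDiff_pd (dil_contDiff M _ k.hη) i).continuous
  have iG : ∀ i, Integrable (pd i (Gam d M k.η)) := fun i =>
    (cG i).integrable_of_hasCompactSupport (pd_cs (hasCS (dil_supp M _ k.hsη)) i)
  have iφ : Integrable (mol d 0 k.φ) := hφc.integrable_of_hasCompactSupport hφs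
  have e0 : ∫ x in W, |cv ρ h0 (mol d 0 k.φ) x| ≤ τ' * ∫ y, |h0 y| ∂ρ := by
    refine cv_set_bound hh0 hφc iφ hτ'0.le fun y => ?_
    calc _ ≤ ∫⁻ _ in W, ENNReal.ofReal B := by
          refine lintegral_mono fun x => ?_
          rw [Real.enorm_eq_ofReal_abs]
          exact ENNReal.ofReal_le_ofReal (hB _)
      _ = ENNReal.ofReal B * volume W := by rw [setLIntegral_const]
      _ ≤ ENNReal.ofReal B * ENNReal.ofReal (τ' / (B + 1)) := by gcongr
      _ = ENNReal.ofReal (B * (τ' / (B + 1))) := by rw [← ENNReal.ofReal_mul hB0]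
      _ ≤ _ := by
          refine ENNReal.ofReal_le_ofReal ?_
          calc B * (τ' / (B + 1)) = τ' * (B / (B + 1)) := by ring
            _ ≤ τ' * 1 := by
                refine mul_le_mul_of_nonneg_left ?_ hτ'0.le
                rw [div_le_one (by positivity)]
                linarith
            _ = _ := mul_one _
  have e1 : ∀ i, ∫ x in W, |cv ρ (h i) (pd i (Gam d M k.η)) x| ≤ τ' * ∫ y, |h i y| ∂ρ := by
    intro i
    refine cv_set_bound (hh i) (cG i) (iG i) hτ'0.le fun y => ?_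
    rw [pd_Gam M k.hη i]
    exact hδi2 i M y W (hW1 i)
  have j0 : Integrable (cv ρ h0 (mol d 0 k.φ)) := cv_integrable hh0 iφ
  have j1 : ∀ i, Integrable (cv ρ (h i) (pd i (Gam d M k.η))) := fun i =>
    cv_integrable (hh i) (iG i)
  calc _ ≤ ∫ x in W, (|cv ρ h0 (mol d 0 k.φ) x| +
        ∑ i, |cv ρ (h i) (pd i (Gam d M k.η)) x|) := by
        refine integral_mono ?_ ?_ fun x => ?_
        · exact ((j0.add (integrable_finsetSum _ fun i _ => j1 i)).abs).integrableOn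
        · exact (j0.abs.add (integrable_finsetSum _ fun i _ => (j1 i).abs)).integrableOn
        · exact (abs_add_le _ _).trans (add_le_add le_rfl (Finset.abs_sum_le_sum_abs _ _))
    _ = (∫ x in W, |cv ρ h0 (mol d 0 k.φ) x|) +
        ∑ i, ∫ x in W, |cv ρ (h i) (pd i (Gam d M k.η)) x| := by
        rw [integral_add j0.abs.integrableOn
          (integrable_finsetSum _ fun i _ => (j1 i).abs).integrableOn,
          integral_finsetSum _ fun i _ => (j1 i).abs.integrableOn]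
    _ ≤ τ' * (∫ y, |h0 y| ∂ρ) + ∑ i, τ' * ∫ y, |h i y| ∂ρ :=
        add_le_add e0 (Finset.sum_le_sum fun i _ => e1 i)
    _ = τ' * ((∫ y, |h0 y| ∂ρ) + ∑ i, ∫ y, |h i y| ∂ρ) := by
        rw [← Finset.mul_sum, mul_add]
    _ ≤ τ' * H := mul_le_mul_of_nonneg_left hsum hτ'0.le
    _ ≤ τ := by
        rw [hτ', div_mul_eq_mul_div, div_le_iff₀ (by positivity)]
        nlinarith

end Vale.Agent.P073.H940
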