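import Mathlib

open MeasureTheory Set Filter Topology
open scoped ContDiff

namespace Vale.Agent.P073.H940

/-- Euclidean space. -/
abbrev E (d : ℕ) := EuclideanSpace ℝ (Fin d)

/-- The `i`-th basis vector. -/
noncomputable def ei {d : ℕ} (i : Fin d) : E d := EuclideanSpace.single i (1 : ℝ)

/-- The derivative in the direction of the `i`-th basis vector. -/
noncomputable def pd {d : ℕ} (i : Fin d) (f : E d → ℝ) (x : E d) : ℝ := fderiv ℝ f x (ei i)

/-- one dimensional profile `κ`. -/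
noncomputable def kap (s : ℝ) : ℝ := Real.smoothTransition (2 * s - 1)

lemma kap_contDiff : ContDiff ℝ ∞ kap :=
  Real.smoothTransition.contDiff.comp (by fun_prop)

lemma kap_zero {s : ℝ} (h : s ≤ 1 / 2) : kap s = 0 :=
  Real.smoothTransition.zero_of_nonpos (by linarith)

lemma kap_one {s : ℝ} (h : 1 ≤ s) : kap s = 1 :=
  Real.smoothTransition.one_of_one_le (by linarith)

/-- the profile `q` with `h' = q`. -/
noncomputable def qf (d : ℕ) (s : ℝ) : ℝ := s ^ (-(d : ℝ) / 2) * (kap (4 * s) - kap s)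

lemma qf_zero_left (d : ℕ) {s : ℝ} (h : s ≤ 1 / 8) : qf d s = 0 := by
  unfold qf
  rw [kap_zero (by linarith), kap_zero (by linarith)]
  simp

lemma qf_zero_right (d : ℕ) {s : ℝ} (h : 1 ≤ s) : qf d s = 0 := by
  unfold qf
  rw [kap_one (by linarith), kap_one (by linarith)]
  simp

lemma qf_contDiff (d : ℕ) : ContDiff ℝ ∞ (qf d) := by
  rw [contDiff_iff_contDiffAt]
  intro s
  by_cases h : s < 1 / 8
  · have : qf d =ᶠ[𝓝 s] fun _ => 0 := by
      filter_upwards [Iio_mem_nhds h] with t ht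
      exact qf_zero_left d (le_of_lt ht)
    exact contDiffAt_const.congr_of_eventuallyEq this
  · have hs : s ≠ 0 := by
      intro h0
      rw [h0] at h
      norm_num at h
    unfold qf
    refine (Real.contDiffAt_rpow_const_of_ne hs).mul ?_
    exact ((kap_contDiff.comp (by fun_prop : ContDiff ℝ ∞ fun s : ℝ => 4 * s)).sub
      kap_contDiff).contDiffAt

/-- primitive of `qf` vanishing on `[1, ∞)`. -/
noncomputable def hf (d : ℕ) (s : ℝ) : ℝ := ∫ t in (1 : ℝ)..s, qf d t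

lemma hf_hasDerivAt (d : ℕ) (s : ℝ) : HasDerivAt (hf d) (qf d s) s :=
  intervalIntegral.integral_hasDerivAt_right
    ((qf_contDiff d).continuous.intervalIntegrable _ _)
    ((qf_contDiff d).continuous.stronglyMeasurableAtFilter _ _)
    (qf_contDiff d).continuous.continuousAt

lemma hf_contDiff (d : ℕ) : ContDiff ℝ ∞ (hf d) := by
  rw [contDiff_infty_iff_deriv]
  refine ⟨fun s => (hf_hasDerivAt d s).differentiableAt, ?_⟩
  have : deriv (hf d) = qf d := funext fun s => (hf_hasDerivAt d s).deriv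
  rw [this]
  exact qf_contDiff d

lemma hf_zero (d : ℕ) {s : ℝ} (h : 1 ≤ s) : hf d s = 0 := by
  unfold hf
  rw [intervalIntegral.integral_congr (g := fun _ => (0 : ℝ))]
  · simp
  · intro t ht
    rw [uIcc_of_le h] at ht
    exact qf_zero_right d ht.1

/-- the profile of the mollifier -/
noncomputable def pf (d : ℕ) (s : ℝ) : ℝ := 4 * s ^ (1 - (d : ℝ) / 2) * deriv kap s

lemma kap_deriv_zero_left {s : ℝ} (h : s < 1 / 2) : deriv kap s = 0 := by
  have : kap =ᶠ[𝓝 s] fun _ => 0 := by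
    filter_upwards [Iio_mem_nhds h] with t ht
    exact kap_zero (le_of_lt ht)
  rw [this.deriv_eq]
  simp

lemma kap_deriv_zero_right {s : ℝ} (h : 1 < s) : deriv kap s = 0 := by
  have : kap =ᶠ[𝓝 s] fun _ => 1 := by
    filter_upwards [Ioi_mem_nhds h] with t ht
    exact kap_one (le_of_lt ht)
  rw [this.deriv_eq]
  simp

lemma kap_mono : Monotone kap := fun a b h =>
  Real.smoothTransition.monotone (by linarith)

lemma kap_deriv_nonneg (s : ℝ) : 0 ≤ deriv kap s := kap_mono.deriv_nonneg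

lemma kap_deriv_contDiff : ContDiff ℝ ∞ (deriv kap) :=
  (contDiff_infty_iff_deriv.1 kap_contDiff).2

lemma pf_contDiff (d : ℕ) : ContDiff ℝ ∞ (pf d) := by
  rw [contDiff_iff_contDiffAt]
  intro s
  by_cases h : s < 1 / 2
  · have : pf d =ᶠ[𝓝 s] fun _ => 0 := by
      filter_upwards [Iio_mem_nhds h] with t ht
      unfold pf
      rw [kap_deriv_zero_left ht]
      simp
    exact contDiffAt_const.congr_of_eventuallyEq this
  · have hs : s ≠ 0 := by
      intro h0
      rw [h0] at h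
      norm_num at h
    unfold pf
    exact (contDiffAt_const.mul (Real.contDiffAt_rpow_const_of_ne hs)).mul
      kap_deriv_contDiff.contDiffAt

lemma pf_nonneg (d : ℕ) {s : ℝ} (hs : 0 ≤ s) : 0 ≤ pf d s := by
  unfold pf
  have := Real.rpow_nonneg hs (1 - (d : ℝ) / 2)
  have := kap_deriv_nonneg s
  positivity

lemma pf_zero_right (d : ℕ) {s : ℝ} (h : 1 < s) : pf d s = 0 := by
  unfold pf
  rw [kap_deriv_zero_right h]
  simp

/-- the one dimensional identity -/
lemma profile_eq (d : ℕ) {s : ℝ} :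
    4 * s * deriv (qf d) s + 2 * d * qf d s = 2 ^ d * pf d (4 * s) - pf d s := by
  by_cases h : s < 1 / 8
  · have : qf d =ᶠ[𝓝 s] fun _ => 0 := by
      filter_upwards [Iio_mem_nhds h] with t ht
      exact qf_zero_left d (le_of_lt ht)
    rw [this.deriv_eq, qf_zero_left d h.le]
    unfold pf
    rw [kap_deriv_zero_left (by linarith), kap_deriv_zero_left (by linarith)]
    simp
  · have h0 : 0 < s := by linarith [not_lt.1 h]
    have hk : ∀ t, HasDerivAt kap (deriv kap t) t := fun t =>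
      ((kap_contDiff.differentiable (by simp)) t).hasDerivAt
    have hk4 : HasDerivAt (fun t => kap (4 * t)) (deriv kap (4 * s) * 4) s := by
      have h4 : HasDerivAt (fun t : ℝ => 4 * t) 4 s := by
        simpa using (hasDerivAt_id s).const_mul 4
      exact (hk (4 * s)).comp s h4
    have hp : HasDerivAt (fun t : ℝ => t ^ (-(d : ℝ) / 2))
        (-(d : ℝ) / 2 * s ^ (-(d : ℝ) / 2 - 1)) s := by
      have := Real.hasDerivAt_rpow_const (x := s) (p := -(d : ℝ) / 2) (Or.inl h0.ne')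
      simpa using this
    have hq : HasDerivAt (qf d) (-(d : ℝ) / 2 * s ^ (-(d : ℝ) / 2 - 1) *
        (kap (4 * s) - kap s) + s ^ (-(d : ℝ) / 2) * (deriv kap (4 * s) * 4 - deriv kap s)) s :=
      hp.mul (hk4.sub (hk s))
    rw [hq.deriv]
    unfold qf pf
    have e1 : s ^ (-(d : ℝ) / 2 - 1) = s ^ (-(d : ℝ) / 2) / s := by
      rw [Real.rpow_sub_one h0.ne']
    have e2 : s ^ (1 - (d : ℝ) / 2) = s * s ^ (-(d : ℝ) / 2) := by
      rw [show (1 - (d : ℝ) / 2) = 1 + (-(d : ℝ) / 2) by ring, Real.rpow_add h0, Real.rpow_one]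
    have e3 : (4 * s) ^ (1 - (d : ℝ) / 2) = 4 / 2 ^ d * (s * s ^ (-(d : ℝ) / 2)) := by
      rw [Real.mul_rpow (by norm_num) h0.le, e2]
      congr 1
      rw [show (1 - (d : ℝ) / 2) = 1 + (-(d : ℝ) / 2) by ring, Real.rpow_add (by norm_num),
        Real.rpow_one, show (4 : ℝ) = 2 ^ (2 : ℝ) by norm_num, ← Real.rpow_mul (by norm_num),
        show (2 : ℝ) * (-(d : ℝ) / 2) = -(d : ℝ) by ring, Real.rpow_neg (by norm_num),
        Real.rpow_natCast]
      rfl
    rw [e1, e2, e3]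
    have h2 : (2 : ℝ) ^ d ≠ 0 := by positivity
    field_simp
    ring

variable {d : ℕ}

/-- auxiliary: the function `x ↦ g (‖x‖²)`. -/
noncomputable def rad (g : ℝ → ℝ) (x : E d) : ℝ := g (‖x‖ ^ 2)

lemma rad_contDiff {g : ℝ → ℝ} (hg : ContDiff ℝ ∞ g) : ContDiff ℝ ∞ (rad (d := d) g) :=
  hg.comp (contDiff_norm_sq ℝ)

lemma inner_ei (x : E d) (i : Fin d) : inner ℝ x (ei i) = x i := by
  unfold ei
  simp [EuclideanSpace.inner_single_right]

lemma rad_pd {g : ℝ → ℝ} (hg : ContDiff ℝ ∞ g) (i : Fin d) (x : E d) :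
    pd i (rad g) x = deriv g (‖x‖ ^ 2) * (2 * x i) := by
  have h1 : HasFDerivAt (fun x : E d => ‖x‖ ^ 2) (2 • (innerSL ℝ x)) x :=
    (hasStrictFDerivAt_norm_sq x).hasFDerivAt
  have h2 : HasDerivAt g (deriv g (‖x‖ ^ 2)) (‖x‖ ^ 2) :=
    ((hg.differentiable (by simp)) _).hasDerivAt
  have h3 := h2.comp_hasFDerivAt x h1
  unfold pd
  have h4 : fderiv ℝ (rad g) x = deriv g (‖x‖ ^ 2) • (2 • (innerSL ℝ x)) := h3.fderiv
  rw [h4]
  simp only [smul_apply, innerSL_apply_apply, inner_ei, smul_eq_mul,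
    nsmul_eq_mul]
  push_cast
  ring

lemma pd_coord (i j : Fin d) (x : E d) : pd i (fun y : E d => y j) x = if i = j then 1 else 0 := by
  unfold pd
  have : HasFDerivAt (fun y : E d => y j) (EuclideanSpace.proj j : E d →L[ℝ] ℝ) x :=
    (EuclideanSpace.proj j : E d →L[ℝ] ℝ).hasFDerivAt
  rw [this.fderiv]
  unfold ei
  simp [PiLp.single_apply, eq_comm]

lemma rad_pd2 {g : ℝ → ℝ} (hg : ContDiff ℝ ∞ g) (i : Fin d) (x : E d) :
    pd i (pd i (rad g)) x =
      deriv (deriv g) (‖x‖ ^ 2) * (2 * x i) * (2 * x i) + deriv g (‖x‖ ^ 2) * 2 := by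
  have hg' : ContDiff ℝ ∞ (deriv g) := (contDiff_infty_iff_deriv.1 hg).2
  have e : pd i (rad g) = fun x : E d => rad (deriv g) x * (2 * x i) :=
    funext fun x => rad_pd hg i x
  rw [e]
  have h1 : HasFDerivAt (rad (d := d) (deriv g)) (fderiv ℝ (rad (deriv g)) x) x :=
    ((rad_contDiff hg').differentiable (by simp) x).hasFDerivAt
  have h2 : HasFDerivAt (fun y : E d => 2 * y i)
      ((2 : ℝ) • (EuclideanSpace.proj i : E d →L[ℝ] ℝ)) x :=
    ((EuclideanSpace.proj i : E d →L[ℝ] ℝ).hasFDerivAt).const_mul 2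
  have h3 : fderiv ℝ (fun y : E d => rad (deriv g) y * (2 * y i)) x = _ := (h1.mul h2).fderiv
  unfold pd
  rw [h3]
  have h5 : fderiv ℝ (rad (deriv g)) x (ei i) = deriv (deriv g) (‖x‖ ^ 2) * (2 * x i) :=
    rad_pd hg' i x
  simp only [add_apply, smul_apply, smul_eq_mul, h5]
  have h6 : (EuclideanSpace.proj i : E d →L[ℝ] ℝ) (ei i) = 1 := by
    unfold ei
    simp
  rw [h6]
  unfold rad
  ring

lemma sum_sq (x : E d) : ∑ i, x i * x i = ‖x‖ ^ 2 := by
  rw [EuclideanSpace.norm_sq_eq]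
  refine Finset.sum_congr rfl fun i _ => ?_
  rw [Real.norm_eq_abs, sq_abs, sq]

lemma rad_lap {g : ℝ → ℝ} (hg : ContDiff ℝ ∞ g) (x : E d) :
    ∑ i, pd i (pd i (rad g)) x =
      4 * ‖x‖ ^ 2 * deriv (deriv g) (‖x‖ ^ 2) + 2 * d * deriv g (‖x‖ ^ 2) := by
  simp only [rad_pd2 hg]
  rw [Finset.sum_add_distrib, Finset.sum_const, Finset.card_univ, Fintype.card_fin, nsmul_eq_mul]
  have : ∀ i : Fin d, deriv (deriv g) (‖x‖ ^ 2) * (2 * x i) * (2 * x i) =
      4 * deriv (deriv g) (‖x‖ ^ 2) * (x i * x i) := fun i => by ring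
  simp only [this]
  rw [← Finset.mul_sum, sum_sq]
  ring

/-- Existence of the kernel pair: a mollifier `φ` and a compactly supported potential `η` of
`φ_{1/2} - φ`. -/
theorem exists_kernel (hd : 0 < d) : ∃ φ η : E d → ℝ, ContDiff ℝ ∞ φ ∧ ContDiff ℝ ∞ η ∧
    (∀ x, 1 < ‖x‖ → φ x = 0) ∧ (∀ x, 1 < ‖x‖ → η x = 0) ∧ (∀ x, 0 ≤ φ x) ∧
    (∫ x, φ x = 1) ∧ ∀ x, ∑ i, pd i (pd i η) x = 2 ^ d * φ ((2 : ℝ) • x) - φ x := by
  set φ₀ : E d → ℝ := rad (pf d) with hφ₀
  set η₀ : E d → ℝ := rad (hf d) with hη₀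
  have c1 : ContDiff ℝ ∞ φ₀ := rad_contDiff (pf_contDiff d)
  have c2 : ContDiff ℝ ∞ η₀ := rad_contDiff (hf_contDiff d)
  have s1 : ∀ x, 1 < ‖x‖ → φ₀ x = 0 := fun x hx => by
    rw [hφ₀]
    exact pf_zero_right d (by nlinarith)
  have s2 : ∀ x, 1 < ‖x‖ → η₀ x = 0 := fun x hx => by
    rw [hη₀]
    exact hf_zero d (by nlinarith)
  have n1 : ∀ x, 0 ≤ φ₀ x := fun x => pf_nonneg d (by positivity)
  have l1 : ∀ x, ∑ i, pd i (pd i η₀) x = 2 ^ d * φ₀ ((2 : ℝ) • x) - φ₀ x := by
    intro x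
    have e1 : deriv (hf d) = qf d := funext fun s => (hf_hasDerivAt d s).deriv
    rw [hη₀, rad_lap (hf_contDiff d), e1, profile_eq d, hφ₀]
    unfold rad
    rw [norm_smul]
    congr 3
    rw [Real.norm_eq_abs, abs_of_pos (by norm_num : (0 : ℝ) < 2)]
    ring
  have cs : HasCompactSupport φ₀ := by
    refine HasCompactSupport.intro (isCompact_closedBall (0 : E d) 1) fun x hx => s1 x ?_
    simpa using hx
  have pos : 0 < ∫ x, φ₀ x := by
    have hex : ∃ s ∈ Ioo (1 / 2 : ℝ) 1, deriv kap s = (kap 1 - kap (1 / 2)) / (1 - 1 / 2) :=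
      exists_deriv_eq_slope kap (by norm_num) kap_contDiff.continuous.continuousOn
        (kap_contDiff.differentiable (by simp)).differentiableOn
    obtain ⟨s, hs, hds⟩ := hex
    rw [kap_one le_rfl, kap_zero le_rfl] at hds
    set x₀ : E d := (Real.sqrt s) • ei ⟨0, hd⟩ with hx₀
    have hx0 : ‖x₀‖ ^ 2 = s := by
      rw [hx₀, norm_smul, ei, PiLp.norm_single]
      simp only [norm_one, mul_one, Real.norm_eq_abs, sq_abs]
      exact Real.sq_sqrt (by linarith [hs.1])
    refine Continuous.integral_pos_of_hasCompactSupport_nonneg_nonzero (x := x₀)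
      c1.continuous cs n1 ?_
    rw [hφ₀]
    unfold rad
    rw [hx0]
    unfold pf
    rw [hds]
    have : 0 < s ^ (1 - (d : ℝ) / 2) := Real.rpow_pos_of_pos (by linarith [hs.1]) _
    have h4 : (0 : ℝ) < 4 * s ^ (1 - (d : ℝ) / 2) * ((1 - 0) / (1 - 1 / 2)) := by
      norm_num
      exact this
    exact h4.ne'
  set c := (∫ x, φ₀ x)⁻¹ with hc
  have hcpos : 0 < c := inv_pos.2 pos
  refine ⟨fun x => c * φ₀ x, fun x => c * η₀ x, contDiff_const.mul c1, contDiff_const.mul c2,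
    fun x hx => by simp [s1 x hx], fun x hx => by simp [s2 x hx],
    fun x => mul_nonneg hcpos.le (n1 x), ?_, ?_⟩
  · rw [integral_const_mul, hc, inv_mul_cancel₀ pos.ne']
  · intro x
    have e : ∀ i : Fin d, pd i (pd i fun x => c * η₀ x) x = c * pd i (pd i η₀) x := by
      intro i
      have e1 : (pd i fun x => c * η₀ x) = fun x => c * pd i η₀ x := by
        funext y
        unfold pd
        rw [fderiv_const_mul ((c2.differentiable (by simp)) y)]
        simp
      rw [e1]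
      have c3 : Differentiable ℝ (pd i η₀) := by
        have : ContDiff ℝ ∞ (fun x => fderiv ℝ η₀ x (ei i)) :=
          (c2.fderiv_right (m := ∞) (by simp)).clm_apply contDiff_const
        exact this.differentiable (by simp)
      show fderiv ℝ (fun x => c * pd i η₀ x) x (ei i) = c * fderiv ℝ (pd i η₀) x (ei i)
      rw [fderiv_const_mul (c3 x)]
      simp
    simp only [e]
    rw [← Finset.mul_sum, l1 x]
    ring

end Vale.Agent.P073.H940
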