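import Vale.Agent.P073.H940.Cz2

open MeasureTheory Set Filter Topology Metric
open scoped ContDiff ENNReal Convolution

namespace Vale.Agent.P073.H940

variable {d : ℕ}

lemma pd_cs {w : E d → ℝ} (hw : HasCompactSupport w) (i : Fin d) : HasCompactSupport (pd i w) :=
  hw.fderiv_apply (𝕜 := ℝ) (ei i)

lemma pd_comm {w : E d → ℝ} (hw : ContDiff ℝ ∞ w) (i k : Fin d) :
    pd i (pd k w) = pd k (pd i w) := by
  have key : ∀ (i k : Fin d) (x : E d),
      pd i (pd k w) x = fderiv ℝ (fderiv ℝ w) x (ei i) (ei k) := by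
    intro i k x
    have h1 : ContDiff ℝ ∞ (fderiv ℝ w) := hw.fderiv_right (m := ∞) (by simp)
    have h2 : HasFDerivAt (fderiv ℝ w) (fderiv ℝ (fderiv ℝ w) x) x :=
      (h1.differentiable (by simp) x).hasFDerivAt
    have h3 : HasFDerivAt (fun y => fderiv ℝ w y (ei k))
        ((fderiv ℝ (fderiv ℝ w) x).flip (ei k)) x := by
      have := h2.clm_apply (hasFDerivAt_const (ei k) x)
      refine this.congr_fderiv ?_
      ext v
      simp
    unfold pd
    rw [h3.fderiv]
    rfl
  funext x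
  rw [key, key]
  have : IsSymmSndFDerivAt ℝ w x := (hw.contDiffAt).isSymmSndFDerivAt (by
    rw [minSmoothness_of_isRCLikeNormedField]
    exact WithTop.coe_le_coe.2 (le_top : (2 : ℕ∞) ≤ ⊤))
  exact this (ei i) (ei k)

lemma ibp {f g : E d → ℝ} (hf : ContDiff ℝ ∞ f) (hg : ContDiff ℝ ∞ g)
    (hcf : HasCompactSupport f) (i : Fin d) :
    ∫ x, f x * pd i g x = - ∫ x, pd i f x * g x := by
  refine integral_mul_fderiv_eq_neg_fderiv_mul_of_integrable ?_ ?_ ?_
    (fun x _ => hf.differentiable (by simp) x) (fun x _ => hg.differentiable (by simp) x)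
  · exact ((contDiff_pd hf i).continuous.mul hg.continuous).integrable_of_hasCompactSupport
      ((pd_cs hcf i).mul_right)
  · exact (hf.continuous.mul (contDiff_pd hg i).continuous).integrable_of_hasCompactSupport
      (hcf.mul_right)
  · exact (hf.continuous.mul hg.continuous).integrable_of_hasCompactSupport (hcf.mul_right)

lemma hess_ibp {w : E d → ℝ} (hw : ContDiff ℝ ∞ w) (hc : HasCompactSupport w) (i k : Fin d) :
    ∫ x, pd k (pd i w) x ^ 2 = ∫ x, pd i (pd i w) x * pd k (pd k w) x := by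
  have c1 := contDiff_pd hw i
  have c2 := contDiff_pd hw k
  have c3 := contDiff_pd c1 k
  have c4 := contDiff_pd c2 k
  have e1 : ∫ x, pd k (pd i w) x ^ 2 = - ∫ x, pd k (pd k (pd i w)) x * pd i w x := by
    rw [← ibp c3 c1 (pd_cs (pd_cs hc i) k) k]
    refine integral_congr_ae (Eventually.of_forall fun x => ?_)
    simp only
    ring
  have e2 : pd k (pd k (pd i w)) = pd i (pd k (pd k w)) := by
    rw [pd_comm hw k i, pd_comm c2 k i]
  have e3 : ∫ x, pd i (pd k (pd k w)) x * pd i w x =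
      - ∫ x, pd k (pd k w) x * pd i (pd i w) x := by
    rw [ibp c4 c1 (pd_cs (pd_cs hc k) k) i, neg_neg]
  rw [e1, e2, e3, neg_neg]
  refine integral_congr_ae (Eventually.of_forall fun x => ?_)
  simp only
  ring

/-- `∫ |∂_k ∂_i w|² ≤ ∫ |Δ w|²`. -/
lemma hess_le_lap {w : E d → ℝ} (hw : ContDiff ℝ ∞ w) (hc : HasCompactSupport w) (i k : Fin d) :
    ∫ x, pd k (pd i w) x ^ 2 ≤ ∫ x, (∑ j, pd j (pd j w) x) ^ 2 := by
  have hc2 : ∀ i, Continuous (pd i (pd i w)) := fun i =>
    (contDiff_pd (contDiff_pd hw i) i).continuous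
  have hint : ∀ i k, Integrable (fun x => pd i (pd i w) x * pd k (pd k w) x) := fun i k =>
    ((hc2 i).mul (hc2 k)).integrable_of_hasCompactSupport (pd_cs (pd_cs hc i) i).mul_right
  have e : ∫ x, (∑ j, pd j (pd j w) x) ^ 2 = ∑ i, ∑ k, ∫ x, pd k (pd i w) x ^ 2 := by
    simp only [hess_ibp hw hc]
    have : ∀ x, (∑ j, pd j (pd j w) x) ^ 2 =
        ∑ i, ∑ k, pd i (pd i w) x * pd k (pd k w) x := fun x => by
      rw [sq, Finset.sum_mul_sum]
    simp only [this]
    rw [integral_finsetSum _ fun i _ => integrable_finsetSum _ fun k _ => hint i k]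
    refine Finset.sum_congr rfl fun i _ => ?_
    rw [integral_finsetSum _ fun k _ => hint i k]
  rw [e]
  have h0 : ∀ i k, 0 ≤ ∫ x, pd k (pd i w) x ^ 2 := fun i k =>
    integral_nonneg fun x => sq_nonneg _
  calc _ ≤ ∑ k, ∫ x, pd k (pd i w) x ^ 2 :=
        Finset.single_le_sum (f := fun k => ∫ x, pd k (pd i w) x ^ 2) (fun k _ => h0 i k)
          (Finset.mem_univ k)
    _ ≤ _ := Finset.single_le_sum (f := fun i => ∑ k, ∫ x, pd k (pd i w) x ^ 2)
          (fun i _ => Finset.sum_nonneg fun k _ => h0 i k) (Finset.mem_univ i)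

lemma cv_eq (ρ : Measure (E d)) (a κ : E d → ℝ) :
    cv ρ a κ = (a ⋆[ContinuousLinearMap.mul ℝ ℝ, ρ] κ) := rfl

lemma cv_contDiff {g κ : E d → ℝ} (hg : Integrable g volume) (hκ : ContDiff ℝ ∞ κ)
    (hc : HasCompactSupport κ) : ContDiff ℝ ∞ (cv volume g κ) :=
  hc.contDiff_convolution_right (n := ⊤) (ContinuousLinearMap.mul ℝ ℝ) hg.locallyIntegrable hκ

lemma pd_cv {g κ : E d → ℝ} (hg : Integrable g volume) (hκ : ContDiff ℝ ∞ κ)
    (hc : HasCompactSupport κ) (i : Fin d) : pd i (cv volume g κ) = cv volume g (pd i κ) := by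
  funext x
  have h := hc.hasFDerivAt_convolution_right (ContinuousLinearMap.mul ℝ ℝ)
    hg.locallyIntegrable (hκ.of_le (by simp)) x
  unfold pd
  rw [cv_eq, h.fderiv, convolution_precompR_apply _ hg.locallyIntegrable (hc.fderiv ℝ)
    (hκ.continuous_fderiv (by simp))]
  rfl

lemma cv_cs {g κ : E d → ℝ} (hg : HasCompactSupport g) (hκ : HasCompactSupport κ) :
    HasCompactSupport (cv volume g κ) := by
  rw [cv_eq]
  exact HasCompactSupport.convolution (ContinuousLinearMap.mul ℝ ℝ) hg hκ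

lemma bdd_of {κ : E d → ℝ} (hκ : Continuous κ) (hc : HasCompactSupport κ) :
    ∃ B, ∀ x, |κ x| ≤ B := by
  obtain ⟨B, hB⟩ := hc.exists_bound_of_continuous hκ
  exact ⟨B, fun x => by simpa using hB x⟩

/-- Jensen: `(g * φ)² ≤ g² * φ` and the `L²` bound. -/
lemma young {g φ : E d → ℝ} (hg : Integrable g volume) {B : ℝ} (hB : ∀ x, |g x| ≤ B)
    (hgm : Measurable g) (hφ : Continuous φ) (hc : HasCompactSupport φ) (h0 : ∀ x, 0 ≤ φ x)
    (h1 : ∫ x, φ x = 1) :
    Integrable (fun x => cv volume g φ x ^ 2) ∧ ∫ x, cv volume g φ x ^ 2 ≤ ∫ x, g x ^ 2 := by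
  obtain ⟨Bφ, hBφ⟩ := bdd_of hφ hc
  have hB0 : 0 ≤ B := (abs_nonneg _).trans (hB 0)
  have hg2 : Integrable (fun x => g x ^ 2) := by
    have : Integrable (fun x => g x * g x) :=
      hg.mul_bdd (c := B) hgm.aestronglyMeasurable
        (Eventually.of_forall fun x => by simpa using hB x)
    simpa [sq] using this
  have hφi : Integrable φ := hφ.integrable_of_hasCompactSupport hc
  have hpt : ∀ x, cv volume g φ x ^ 2 ≤ cv volume (fun y => g y ^ 2) φ x := by
    intro x
    set m := cv volume g φ x with hm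
    have i1 : Integrable (fun y => g y * φ (x - y)) := mul_bdd_integrable hg hφ hBφ x
    have i2 : Integrable (fun y => g y ^ 2 * φ (x - y)) := mul_bdd_integrable hg2 hφ hBφ x
    have i3 : Integrable (fun y => φ (x - y)) := hφi.comp_sub_left x
    have e3 : ∫ y, φ (x - y) = 1 := by rw [integral_sub_left_eq_self φ volume x, h1]
    have h : 0 ≤ ∫ y, (g y - m) ^ 2 * φ (x - y) :=
      integral_nonneg fun y => mul_nonneg (sq_nonneg _) (h0 _)
    have e : ∫ y, (g y - m) ^ 2 * φ (x - y) =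
        (∫ y, g y ^ 2 * φ (x - y)) - 2 * m * (∫ y, g y * φ (x - y)) + m ^ 2 * ∫ y, φ (x - y) := by
      have i4 : Integrable (fun y => g y ^ 2 * φ (x - y) - 2 * m * (g y * φ (x - y))) :=
        i2.sub (i1.const_mul (2 * m))
      rw [← integral_const_mul, ← integral_const_mul,
        ← integral_sub i2 (i1.const_mul (2 * m)),
        ← integral_add i4 (i3.const_mul (m ^ 2))]
      refine integral_congr_ae (Eventually.of_forall fun y => ?_)
      simp only
      ring
    have hm' : ∫ y, g y * φ (x - y) = m := rfl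
    rw [e, e3, hm'] at h
    have : cv volume (fun y => g y ^ 2) φ x = ∫ y, g y ^ 2 * φ (x - y) := rfl
    rw [this]
    nlinarith
  have hI : Integrable (cv volume (fun y => g y ^ 2) φ) :=
    hg2.integrable_convolution (ContinuousLinearMap.mul ℝ ℝ) hφi
  have hcont : Continuous (cv volume g φ) := cv_continuous hg hφ hBφ
  have hI2 : Integrable (fun x => cv volume g φ x ^ 2) := by
    refine hI.mono' (hcont.pow 2).aestronglyMeasurable (Eventually.of_forall fun x => ?_)
    rw [Real.norm_eq_abs, abs_of_nonneg (sq_nonneg _)]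
    exact hpt x
  refine ⟨hI2, ?_⟩
  calc _ ≤ ∫ x, cv volume (fun y => g y ^ 2) φ x := integral_mono hI2 hI hpt
    _ = (∫ y, g y ^ 2) * ∫ x, φ x :=
      integral_convolution (ContinuousLinearMap.mul ℝ ℝ) hg2 hφi
    _ = _ := by rw [h1, mul_one]

lemma mol_continuous {φ : E d → ℝ} (hφ : Continuous φ) (M : ℕ) : Continuous (mol d M φ) := by
  unfold mol
  fun_prop

lemma mol_supp {φ : E d → ℝ} (hs : ∀ x, 1 < ‖x‖ → φ x = 0) (M : ℕ) (x : E d)
    (hx : 1 < 2 ^ M * ‖x‖) : mol d M φ x = 0 := by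
  unfold mol
  rw [hs, mul_zero]
  rwa [norm_smul, norm_pow, Real.norm_eq_abs, abs_of_pos (by norm_num : (0 : ℝ) < 2)]

lemma mol_supp' {φ : E d → ℝ} (hs : ∀ x, 1 < ‖x‖ → φ x = 0) (M : ℕ) (x : E d)
    (hx : 1 < ‖x‖) : mol d M φ x = 0 := by
  refine mol_supp hs M x (lt_of_lt_of_le hx ?_)
  have : (1 : ℝ) ≤ 2 ^ M := one_le_pow₀ (by norm_num)
  nlinarith [norm_nonneg x]

lemma mol_nonneg {φ : E d → ℝ} (h0 : ∀ x, 0 ≤ φ x) (M : ℕ) (x : E d) : 0 ≤ mol d M φ x := by
  unfold mol
  have := h0 ((2 : ℝ) ^ M • x)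
  positivity

lemma mol_int {φ : E d → ℝ} (h1 : ∫ x, φ x = 1) (M : ℕ) : ∫ x, mol d M φ x = 1 := by
  unfold mol
  rw [integral_const_mul, Measure.integral_comp_smul, h1]
  simp only [finrank_euclideanSpace, Fintype.card_fin, smul_eq_mul, mul_one]
  rw [abs_of_pos (by positivity)]
  field_simp

/-- uniform `L²` bound for `K = ∂_k ∂_i Γ_M`. -/
theorem l2_bound {φ η : E d → ℝ} (hφ : ContDiff ℝ ∞ φ) (hη : ContDiff ℝ ∞ η)
    (hsφ : ∀ x, 1 < ‖x‖ → φ x = 0) (hsη : ∀ x, 1 < ‖x‖ → η x = 0) (h0 : ∀ x, 0 ≤ φ x)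
    (h1 : ∫ x, φ x = 1) (hlap : ∀ x, ∑ i, pd i (pd i η) x = 2 ^ d * φ ((2 : ℝ) • x) - φ x)
    (M : ℕ) (i k : Fin d) {g : E d → ℝ} (hg : Integrable g volume) {B : ℝ}
    (hB : ∀ x, |g x| ≤ B) (hgm : Measurable g) (hgc : HasCompactSupport g) :
    Integrable (fun x => cv volume g (pd k (pd i (Gam d M η))) x ^ 2) ∧
    ∫ x, cv volume g (pd k (pd i (Gam d M η))) x ^ 2 ≤ 4 * ∫ x, g x ^ 2 := by
  have cΓ : ContDiff ℝ ∞ (Gam d M η) := dil_contDiff M _ hη
  have sΓ : HasCompactSupport (Gam d M η) := hasCS (dil_supp M _ hsη)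
  have cw : ContDiff ℝ ∞ (cv volume g (Gam d M η)) := cv_contDiff hg cΓ sΓ
  have sw : HasCompactSupport (cv volume g (Gam d M η)) := cv_cs hgc sΓ
  have e1 : ∀ i k, pd k (pd i (cv volume g (Gam d M η))) =
      cv volume g (pd k (pd i (Gam d M η))) := fun i k => by
    rw [pd_cv hg cΓ sΓ, pd_cv hg (contDiff_pd cΓ i) (pd_cs sΓ i)]
  have e2 : ∀ x, ∑ j, pd j (pd j (cv volume g (Gam d M η))) x =
      cv volume g (mol d M φ) x - cv volume g (mol d 0 φ) x := by
    intro x
    simp only [e1]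
    have hcK : ∀ j, Continuous (pd j (pd j (Gam d M η))) := fun j =>
      (contDiff_pd (contDiff_pd cΓ j) j).continuous
    have hi : ∀ j, Integrable (fun y => g y * pd j (pd j (Gam d M η)) (x - y)) := fun j => by
      obtain ⟨Bj, hBj⟩ := bdd_of (hcK j) (pd_cs (pd_cs sΓ j) j)
      exact mul_bdd_integrable hg (hcK j) hBj x
    have hm : ∀ N, Integrable (fun y => g y * mol d N φ (x - y)) := fun N => by
      obtain ⟨Bj, hBj⟩ := bdd_of (mol_continuous hφ.continuous N) (hasCS (mol_supp' hsφ N))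
      exact mul_bdd_integrable hg (mol_continuous hφ.continuous N) hBj x
    unfold cv
    rw [← integral_finsetSum _ fun j _ => hi j, ← integral_sub (hm M) (hm 0)]
    refine integral_congr_ae (Eventually.of_forall fun y => ?_)
    simp only
    rw [← Finset.mul_sum, lap_Gam M hη hlap]
    ring
  have hY : ∀ N, Integrable (fun x => cv volume g (mol d N φ) x ^ 2) ∧
      ∫ x, cv volume g (mol d N φ) x ^ 2 ≤ ∫ x, g x ^ 2 := fun N =>
    young hg hB hgm (mol_continuous hφ.continuous N) (hasCS (mol_supp' hsφ N))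
      (mol_nonneg h0 N) (mol_int h1 N)
  have hmain := hess_le_lap cw sw i k
  rw [e1] at hmain
  refine ⟨?_, hmain.trans ?_⟩
  · have hc : Continuous (cv volume g (pd k (pd i (Gam d M η)))) := by
      rw [← e1]
      exact (contDiff_pd (contDiff_pd cw i) k).continuous
    have hs : HasCompactSupport (cv volume g (pd k (pd i (Gam d M η)))) := by
      rw [← e1]
      exact pd_cs (pd_cs sw i) k
    have : Integrable (fun x => cv volume g (pd k (pd i (Gam d M η))) x *
        cv volume g (pd k (pd i (Gam d M η))) x) :=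
      (hc.mul hc).integrable_of_hasCompactSupport hs.mul_right
    simpa [sq] using this
  · simp only [e2]
    calc _ ≤ ∫ x, (2 * cv volume g (mol d M φ) x ^ 2 + 2 * cv volume g (mol d 0 φ) x ^ 2) := by
          refine integral_mono_of_nonneg (Eventually.of_forall fun x => sq_nonneg _)
            (((hY M).1.const_mul 2).add ((hY 0).1.const_mul 2)) (Eventually.of_forall fun x => ?_)
          simp only
          nlinarith [sq_nonneg (cv volume g (mol d M φ) x + cv volume g (mol d 0 φ) x)]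
      _ = 2 * (∫ x, cv volume g (mol d M φ) x ^ 2) + 2 * ∫ x, cv volume g (mol d 0 φ) x ^ 2 := by
          rw [integral_add ((hY M).1.const_mul 2) ((hY 0).1.const_mul 2), integral_const_mul,
            integral_const_mul]
      _ ≤ _ := by linarith [(hY M).2, (hY 0).2]

end Vale.Agent.P073.H940
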