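import Vale.Agent.P073.H940.Equi

open MeasureTheory Set Filter Topology Metric
open scoped ContDiff ENNReal Convolution

namespace Vale.Agent.P073.H940

variable {d : ℕ}

/-- The equation: `∂_i (n ρ) = div (s_i ρ) - b_i ρ` on `Om`, tested. -/
def Eqn (Om : Set (E d)) (ρ : Measure (E d)) (n : E d → ℝ) (s : Fin d → E d → E d)
    (b : Fin d → E d → ℝ) : Prop :=
  ∀ (i : Fin d) (ψ : E d → ℝ), ContDiff ℝ ∞ ψ → HasCompactSupport ψ → tsupport ψ ⊆ Om →
    ∫ x, pd i ψ x * n x ∂ρ = (∫ x, fderiv ℝ ψ x (s i x) ∂ρ) + ∫ x, ψ x * b i x ∂ρ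

lemma fderiv_eq_sum {g : E d → ℝ} (x v : E d) :
    fderiv ℝ g x v = ∑ j, v j * pd j g x := by
  have h : v = ∑ j, v j • ei j := by
    ext m
    simp [ei, Pi.single_apply]
  conv_lhs => rw [h]
  rw [map_sum]
  refine Finset.sum_congr rfl fun j _ => ?_
  rw [map_smul, smul_eq_mul]
  rfl

lemma test_fderiv {χ G : E d → ℝ} (hχ : ContDiff ℝ ∞ χ) (hG : ContDiff ℝ ∞ G) (x y v : E d) :
    fderiv ℝ (fun y => χ y * G (x - y)) y v =
      fderiv ℝ χ y v * G (x - y) - χ y * fderiv ℝ G (x - y) v := by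
  have h1 : HasFDerivAt χ (fderiv ℝ χ y) y := (hχ.differentiable (by simp) y).hasFDerivAt
  have h2 : HasFDerivAt G (fderiv ℝ G (x - y)) (x - y) :=
    (hG.differentiable (by simp) _).hasFDerivAt
  have h3 : HasFDerivAt (fun y : E d => x - y) (-ContinuousLinearMap.id ℝ (E d)) y :=
    (hasFDerivAt_id y).const_sub x
  have h4 := h2.comp y h3
  have h5 : fderiv ℝ (fun y => χ y * G (x - y)) y = _ := (h1.mul h4).fderiv
  rw [h5]
  simp
  ring

lemma int_coord {ρ : Measure (E d)} {s : E d → E d} (hs : Integrable s ρ) (j : Fin d) :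
    Integrable (fun y => s y j) ρ := by
  have := (EuclideanSpace.proj j : E d →L[ℝ] ℝ).integrable_comp hs
  exact this

/-- The representation of the mollified measure. -/
lemma pde_rep (k : Ker d) (M : ℕ) {Om : Set (E d)} {ρ : Measure (E d)} {n : E d → ℝ}
    {s : Fin d → E d → E d} {b : Fin d → E d → ℝ} (hn : Integrable n ρ)
    (hs : ∀ i, Integrable (s i) ρ) (hb : ∀ i, Integrable (b i) ρ) (heq : Eqn Om ρ n s b)
    {χ : E d → ℝ} (hχ : ContDiff ℝ ∞ χ) (hχc : HasCompactSupport χ) (hχs : tsupport χ ⊆ Om)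
    (x : E d) :
    cv ρ (fun y => χ y * n y) (mol d M k.φ) x =
      (cv ρ (fun y => χ y * n y) (mol d 0 k.φ) x +
        ∑ i, cv ρ (fun y => pd i χ y * n y - fderiv ℝ χ y (s i y) - χ y * b i y)
          (pd i (Gam d M k.η)) x) +
      ∑ p : Fin d × Fin d, cv ρ (fun y => χ y * s p.1 y p.2) (k.K M p.1 p.2) x := by
  have cΓ : ContDiff ℝ ∞ (Gam d M k.η) := dil_contDiff M _ k.hη
  have sΓ : HasCompactSupport (Gam d M k.η) := hasCS (dil_supp M _ k.hsη)
  -- bounded continuous multipliers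
  have hmul : ∀ (g κ : E d → ℝ), Integrable g ρ → Continuous κ → HasCompactSupport κ →
      Integrable (fun y => g y * κ (x - y)) ρ := fun g κ hg hκ hc => by
    obtain ⟨B, hB⟩ := bdd_of hκ hc
    exact mul_bdd_integrable hg hκ hB x
  have hcm : ∀ (g κ : E d → ℝ), Integrable g ρ → Continuous κ → HasCompactSupport κ →
      Integrable (fun y => κ y * g y) ρ := fun g κ hg hκ hc => by
    obtain ⟨B, hB⟩ := bdd_of hκ hc
    have := hg.mul_bdd (c := B) hκ.aestronglyMeasurable
      (Eventually.of_forall fun y => by simpa using hB y)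
    simpa [mul_comm] using this
  have hχn : Integrable (fun y => χ y * n y) ρ := hcm n χ hn hχ.continuous hχc
  have hχb : ∀ i, Integrable (fun y => χ y * b i y) ρ := fun i => hcm _ χ (hb i) hχ.continuous hχc
  have hχn' : ∀ i, Integrable (fun y => pd i χ y * n y) ρ := fun i =>
    hcm n (pd i χ) hn (contDiff_pd hχ i).continuous (pd_cs hχc i)
  have hχs' : ∀ i j, Integrable (fun y => χ y * s i y j) ρ := fun i j =>
    hcm _ χ (int_coord (hs i) j) hχ.continuous hχc
  have hfs : ∀ i, Integrable (fun y => fderiv ℝ χ y (s i y)) ρ := fun i => by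
    simp only [fderiv_eq_sum]
    refine integrable_finsetSum _ fun j _ => ?_
    have := hcm _ (pd j χ) (int_coord (hs i) j) (contDiff_pd hχ j).continuous (pd_cs hχc j)
    simpa [mul_comm] using this
  -- the equation for each i
  have key : ∀ i, cv ρ (fun y => χ y * n y) (pd i (pd i (Gam d M k.η))) x =
      cv ρ (fun y => pd i χ y * n y - fderiv ℝ χ y (s i y) - χ y * b i y)
          (pd i (Gam d M k.η)) x + ∑ j, cv ρ (fun y => χ y * s i y j) (k.K M i j) x := by
    intro i
    set G : E d → ℝ := pd i (Gam d M k.η) with hG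
    have cG : ContDiff ℝ ∞ G := contDiff_pd cΓ i
    have sG : HasCompactSupport G := pd_cs sΓ i
    set ψ : E d → ℝ := fun y => χ y * G (x - y) with hψ
    have cψ : ContDiff ℝ ∞ ψ := hχ.mul (cG.comp (contDiff_const.sub contDiff_id))
    have sψ : HasCompactSupport ψ := hχc.mul_right
    have tψ : tsupport ψ ⊆ Om := (tsupport_mul_subset_left).trans hχs
    have h := heq i ψ cψ sψ tψ
    have e1 : ∀ y, pd i ψ y * n y = pd i χ y * n y * G (x - y) -
        χ y * n y * pd i G (x - y) := by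
      intro y
      have : pd i ψ y = pd i χ y * G (x - y) - χ y * pd i G (x - y) :=
        test_fderiv hχ cG x y (ei i)
      rw [this]
      ring
    have e2 : ∀ y, fderiv ℝ ψ y (s i y) = fderiv ℝ χ y (s i y) * G (x - y) -
        ∑ j, χ y * s i y j * pd j G (x - y) := by
      intro y
      have : fderiv ℝ ψ y (s i y) = _ := test_fderiv hχ cG x y (s i y)
      rw [this, fderiv_eq_sum (g := G), Finset.mul_sum]
      congr 1
      exact Finset.sum_congr rfl fun j _ => by ring
    have e3 : ∀ y, ψ y * b i y = χ y * b i y * G (x - y) := fun y => by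
      rw [hψ]
      ring
    simp only [e1, e2, e3] at h
    have i1 := hmul _ G (hχn' i) cG.continuous sG
    have i2 := hmul _ (pd i G) hχn (contDiff_pd cG i).continuous (pd_cs sG i)
    have i3 := hmul _ G (hfs i) cG.continuous sG
    have i4 : ∀ j, Integrable (fun y => χ y * s i y j * pd j G (x - y)) ρ := fun j =>
      hmul _ (pd j G) (hχs' i j) (contDiff_pd cG j).continuous (pd_cs sG j)
    have i5 := hmul _ G (hχb i) cG.continuous sG
    rw [integral_sub i1 i2, integral_sub i3 (integrable_finsetSum _ fun j _ => i4 j),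
      integral_finsetSum _ fun j _ => i4 j] at h
    have e4 : cv ρ (fun y => pd i χ y * n y - fderiv ℝ χ y (s i y) - χ y * b i y) G x =
        (∫ y, pd i χ y * n y * G (x - y) ∂ρ) - (∫ y, fderiv ℝ χ y (s i y) * G (x - y) ∂ρ) -
          ∫ y, χ y * b i y * G (x - y) ∂ρ := by
      have i6 : Integrable (fun y => pd i χ y * n y * G (x - y) -
          fderiv ℝ χ y (s i y) * G (x - y)) ρ := i1.sub i3
      rw [← integral_sub i1 i3, ← integral_sub i6 i5]
      unfold cv
      refine integral_congr_ae (Eventually.of_forall fun y => ?_)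
      simp only
      ring
    rw [e4]
    have e5 : cv ρ (fun y => χ y * n y) (pd i G) x = ∫ y, χ y * n y * pd i G (x - y) ∂ρ := rfl
    have e6 : ∀ j, cv ρ (fun y => χ y * s i y j) (k.K M i j) x =
        ∫ y, χ y * s i y j * pd j G (x - y) ∂ρ := fun j => rfl
    simp only [e6]
    rw [e5]
    linarith
  have hm : ∀ N, Integrable (fun y => χ y * n y * mol d N k.φ (x - y)) ρ := fun N =>
    hmul _ (mol d N k.φ) hχn (mol_continuous k.hφ.continuous N) (hasCS (mol_supp' k.hsφ N))
  have e7 : cv ρ (fun y => χ y * n y) (mol d M k.φ) x - cv ρ (fun y => χ y * n y) (mol d 0 k.φ) x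
      = ∑ i, cv ρ (fun y => χ y * n y) (pd i (pd i (Gam d M k.η))) x := by
    unfold cv
    rw [← integral_sub (hm M) (hm 0), ← integral_finsetSum _ fun i _ => hmul _ _ hχn
      (contDiff_pd (contDiff_pd cΓ i) i).continuous (pd_cs (pd_cs sΓ i) i)]
    refine integral_congr_ae (Eventually.of_forall fun y => ?_)
    simp only
    rw [← Finset.mul_sum, lap_Gam M k.hη k.hlap]
    ring
  rw [Fintype.sum_prod_type]
  have e8 : ∑ i, cv ρ (fun y => χ y * n y) (pd i (pd i (Gam d M k.η))) x =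
      ∑ i, cv ρ (fun y => pd i χ y * n y - fderiv ℝ χ y (s i y) - χ y * b i y)
          (pd i (Gam d M k.η)) x +
      ∑ i, ∑ j, cv ρ (fun y => χ y * s i y j) (k.K M i j) x := by
    rw [← Finset.sum_add_distrib]
    exact Finset.sum_congr rfl fun i _ => key i
  linarith

/-- lower bound of the mollified measure on a neighbourhood -/
lemma lower_bound (k : Ker d) (M : ℕ) {ρ : Measure (E d)} [IsFiniteMeasure ρ] {a : E d → ℝ}
    (ha : Integrable a ρ) (ha0 : ∀ x, 0 ≤ a x) {K U : Set (E d)} (hK : MeasurableSet K)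
    (hKU : ∀ y ∈ K, ∀ x, 2 ^ M * ‖x - y‖ ≤ 1 → x ∈ U) :
    ∫ y in K, a y ∂ρ ≤ ∫ x in U, cv ρ a (mol d M k.φ) x := by
  have hφc : Continuous (mol d M k.φ) := mol_continuous k.hφ.continuous M
  have hφs : HasCompactSupport (mol d M k.φ) := hasCS (mol_supp' k.hsφ M)
  obtain ⟨B, hB⟩ := bdd_of hφc hφs
  have iφ : Integrable (mol d M k.φ) := hφc.integrable_of_hasCompactSupport hφs
  have h1 : ∫ y in K, a y ∂ρ = ∫ x, cv (ρ.restrict K) a (mol d M k.φ) x := by
    rw [cv_integral ha.integrableOn iφ, mol_int k.h1, mul_one]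
  have h2 : ∀ x, x ∉ U → cv (ρ.restrict K) a (mol d M k.φ) x = 0 := by
    intro x hx
    unfold cv
    rw [← integral_zero (E d) ℝ (μ := ρ.restrict K)]
    refine setIntegral_congr_fun hK fun y hy => ?_
    have : mol d M k.φ (x - y) = 0 := by
      refine mol_supp k.hsφ M _ ?_
      by_contra hcon
      exact hx (hKU y hy x (not_lt.1 hcon))
    show a y * mol d M k.φ (x - y) = 0
    rw [this, mul_zero]
  rw [h1, ← setIntegral_eq_integral_of_forall_compl_eq_zero h2]
  refine integral_mono (cv_integrable ha.integrableOn iφ).integrableOn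
    (cv_integrable ha iφ).integrableOn fun x => ?_
  exact setIntegral_le_integral (mul_bdd_integrable ha hφc hB x)
    (Eventually.of_forall fun y => mul_nonneg (ha0 y) (mol_nonneg k.h0 M _))

/-- The main estimate with a cut-off. -/
theorem est_chi (hd : 0 < d) : ∃ C : ℝ, 0 ≤ C ∧ ∀ (Om : Set (E d)) (ρ : Measure (E d))
    [IsFiniteMeasure ρ] (n : E d → ℝ) (s : Fin d → E d → E d) (b : Fin d → E d → ℝ),
    Integrable n ρ → (∀ x, 0 ≤ n x) → (∀ i, Integrable (s i) ρ) → (∀ i, Integrable (b i) ρ) →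
    Eqn Om ρ n s b → ∀ χ : E d → ℝ, ContDiff ℝ ∞ χ → HasCompactSupport χ → tsupport χ ⊆ Om →
    (∀ x, 0 ≤ χ x) → ∀ K : Set (E d), IsCompact K → volume K = 0 →
    ∫ y in K, χ y * n y ∂ρ ≤ C * ∑ p : Fin d × Fin d, ∫ y, |χ y * s p.1 y p.2| ∂ρ := by
  obtain ⟨k⟩ := exists_ker hd
  obtain ⟨C, hC, hcore⟩ := core hd k
  refine ⟨C, hC, ?_⟩
  intro Om ρ _ n s b hn hn0 hs hb heq χ hχ hχc hχs hχ0 K hK hK0
  have hcm : ∀ (g κ : E d → ℝ), Integrable g ρ → Continuous κ → HasCompactSupport κ →
      Integrable (fun y => κ y * g y) ρ := fun g κ hg hκ hc => by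
    obtain ⟨B, hB⟩ := bdd_of hκ hc
    have := hg.mul_bdd (c := B) hκ.aestronglyMeasurable
      (Eventually.of_forall fun y => by simpa using hB y)
    simpa [mul_comm] using this
  have hχn : Integrable (fun y => χ y * n y) ρ := hcm n χ hn hχ.continuous hχc
  have hχb : ∀ i, Integrable (fun y => χ y * b i y) ρ := fun i => hcm _ χ (hb i) hχ.continuous hχc
  have hχn' : ∀ i, Integrable (fun y => pd i χ y * n y) ρ := fun i =>
    hcm n (pd i χ) hn (contDiff_pd hχ i).continuous (pd_cs hχc i)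
  have hχs' : ∀ p : Fin d × Fin d, Integrable (fun y => χ y * s p.1 y p.2) ρ := fun p =>
    hcm _ χ (int_coord (hs p.1) p.2) hχ.continuous hχc
  have hfs : ∀ i, Integrable (fun y => fderiv ℝ χ y (s i y)) ρ := fun i => by
    simp only [fderiv_eq_sum]
    refine integrable_finsetSum _ fun j _ => ?_
    have := hcm _ (pd j χ) (int_coord (hs i) j) (contDiff_pd hχ j).continuous (pd_cs hχc j)
    simpa [mul_comm] using this
  have hh : ∀ i, Integrable (fun y => pd i χ y * n y - fderiv ℝ χ y (s i y) - χ y * b i y) ρ :=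
    fun i => ((hχn' i).sub (hfs i)).sub (hχb i)
  set A : ℝ := ∑ p : Fin d × Fin d, ∫ y, |χ y * s p.1 y p.2| ∂ρ with hA
  have hA0 : 0 ≤ A := Finset.sum_nonneg fun p _ => integral_nonneg fun y => abs_nonneg _
  set H : ℝ := (∫ y, |χ y * n y| ∂ρ) +
    ∑ i, ∫ y, |pd i χ y * n y - fderiv ℝ χ y (s i y) - χ y * b i y| ∂ρ with hH
  have hH0 : 0 ≤ H := add_nonneg (integral_nonneg fun y => abs_nonneg _)
    (Finset.sum_nonneg fun i _ => integral_nonneg fun y => abs_nonneg _)
  obtain ⟨R, hR⟩ : ∃ R : ℝ, ∀ x : E d, R < ‖x‖ → χ x = 0 := by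
    obtain ⟨R, hR⟩ := hχc.isCompact.isBounded.exists_norm_le
    refine ⟨R, fun x hx => ?_⟩
    by_contra hne
    have := hR x (subset_tsupport _ (Function.mem_support.2 hne))
    linarith
  have main : ∀ τ : ℝ, 0 < τ → ∫ y in K, χ y * n y ∂ρ ≤ C * A + 3 * τ := by
    intro τ hτ
    obtain ⟨δr, hδr, hequi⟩ := equi_r k hH0 hτ
    obtain ⟨δ, hδ, hc⟩ := hcore A hA0 δr hδr τ hτ
    obtain ⟨U, hKU, hUo, hUv⟩ := K.exists_isOpen_lt_of_lt (ENNReal.ofReal δ)
      (by rw [hK0]; exact ENNReal.ofReal_pos.2 hδ)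
    obtain ⟨ε, hε, hth⟩ := hK.exists_cthickening_subset_open hUo hKU
    obtain ⟨M, hM⟩ := pow_unbounded_of_one_lt (1 / ε) (by norm_num : (1 : ℝ) < 2)
    have hlow := lower_bound k M hχn (fun x => mul_nonneg (hχ0 x) (hn0 x)) hK.measurableSet
      (K := K) (U := U) (by
        intro y hy x hx
        apply hth
        refine mem_cthickening_of_dist_le x y ε K hy ?_
        rw [dist_eq_norm]
        by_contra hcon
        push Not at hcon
        rw [div_lt_iff₀ hε] at hM
        have h2M : (0 : ℝ) < 2 ^ M := by positivity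
        nlinarith)
    refine hlow.trans ?_
    refine hc M ρ (fun p y => χ y * s p.1 y p.2) hχs' ⟨R, fun p x hx => by
      simp only; rw [hR x hx, zero_mul]⟩ le_rfl _
      (fun x => cv ρ (fun y => χ y * n y) (mol d 0 k.φ) x +
        ∑ i, cv ρ (fun y => pd i χ y * n y - fderiv ℝ χ y (s i y) - χ y * b i y)
          (pd i (Gam d M k.η)) x) ?_ ?_ ?_ ?_ U hUo.measurableSet hUv.le
    · intro x
      exact integral_nonneg fun y => mul_nonneg (mul_nonneg (hχ0 y) (hn0 y)) (mol_nonneg k.h0 M _)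
    · refine (cv_integrable hχn ?_).add (integrable_finsetSum _ fun i _ => cv_integrable (hh i) ?_)
      · exact (mol_continuous k.hφ.continuous 0).integrable_of_hasCompactSupport
          (hasCS (mol_supp' k.hsφ 0))
      · exact ((contDiff_pd (dil_contDiff M _ k.hη) i).continuous).integrable_of_hasCompactSupport
          (pd_cs (hasCS (dil_supp M _ k.hsη)) i)
    · intro W hWm hW
      exact hequi M ρ _ _ hχn hh le_rfl W hWm hW
    · intro x
      exact pde_rep k M hn hs hb heq hχ hχc hχs x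
  by_contra hcon
  push Not at hcon
  have := main ((∫ y in K, χ y * n y ∂ρ - C * A) / 6) (by linarith)
  linarith

end Vale.Agent.P073.H940
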