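import Vale.Agent.P073.H940.Dpr

open MeasureTheory Set Filter Topology Metric Matrix
open scoped ContDiff ENNReal

namespace Vale.Agent.P073.H940

variable {d : ℕ}

/-- the error vectors for a constant frame `A`. -/
noncomputable def sErr (A : Matrix (Fin d) (Fin d) ℝ) (ξ : Fin d → E d → E d) (i : Fin d)
    (x : E d) : E d :=
  ∑ j, A⁻¹ i j • (WithLp.toLp 2 (fun m => A j m) - ξ j x)

lemma sErr_integrable {ρ : Measure (E d)} [IsFiniteMeasure ρ] {ξ : Fin d → E d → E d}
    (hξ : ∀ j, Integrable (ξ j) ρ) (A : Matrix (Fin d) (Fin d) ℝ) (i : Fin d) :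
    Integrable (sErr A ξ i) ρ := by
  unfold sErr
  refine integrable_finsetSum _ fun j _ => ?_
  have h : Integrable (fun x => (WithLp.toLp 2 (fun m => A j m) : E d) - ξ j x) ρ :=
    (integrable_const _).sub (hξ j)
  exact h.smul (A⁻¹ i j)

lemma frame_eq {A : Matrix (Fin d) (Fin d) ℝ} (hA : A.det ≠ 0) (i : Fin d) :
    ∑ j, A⁻¹ i j • (WithLp.toLp 2 (fun m => A j m) : E d) = ei i := by
  have h1 : A⁻¹ * A = 1 := Matrix.nonsing_inv_mul A (isUnit_iff_ne_zero.2 hA)
  ext m
  have h2 : (A⁻¹ * A) i m = (1 : Matrix (Fin d) (Fin d) ℝ) i m := by rw [h1]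
  rw [Matrix.mul_apply] at h2
  simp only [WithLp.ofLp_sum, WithLp.ofLp_smul, Finset.sum_apply, Pi.smul_apply, smul_eq_mul]
  rw [h2]
  simp [ei, Matrix.one_apply, eq_comm]

lemma sErr_coord {A : Matrix (Fin d) (Fin d) ℝ} (hA : A.det ≠ 0) (ξ : Fin d → E d → E d)
    (x : E d) (i m : Fin d) :
    sErr A ξ i x m = (1 - A⁻¹ * Matrix.of fun j k => ξ j x k) i m := by
  have h : sErr A ξ i x = ei i - ∑ j, A⁻¹ i j • ξ j x := by
    unfold sErr
    simp only [smul_sub]
    rw [Finset.sum_sub_distrib, frame_eq hA]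
  rw [h, Matrix.sub_apply, Matrix.mul_apply]
  simp [ei, Matrix.one_apply, eq_comm]

/-- **Theorem D** (De Philippis–Rindler for `d` normal currents): on Lebesgue null sets the
directions are linearly dependent. -/
theorem dpr (hd : 0 < d) {Om : Set (E d)} (hOm : IsOpen Om) (ρ : Measure (E d))
    [IsFiniteMeasure ρ] (ξ : Fin d → E d → E d) (b : Fin d → E d → ℝ)
    (hξ : ∀ j, Integrable (ξ j) ρ) (hb : ∀ j, Integrable (b j) ρ)
    (hdiv : ∀ (j : Fin d) (ψ : E d → ℝ), ContDiff ℝ ∞ ψ → HasCompactSupport ψ →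
      tsupport ψ ⊆ Om → ∫ x, fderiv ℝ ψ x (ξ j x) ∂ρ = ∫ x, ψ x * b j x ∂ρ)
    {N : Set (E d)} (hN : MeasurableSet N) (hN0 : volume N = 0) (hNOm : N ⊆ Om) :
    ∀ᵐ x ∂ρ, x ∈ N → ¬ LinearIndependent ℝ (fun j => ξ j x) := by
  obtain ⟨C, hC, hest⟩ := linear_est_ae hd
  have hcount : ∀ᵐ x ∂ρ, ∀ q : Matrix (Fin d) (Fin d) ℚ,
      (q.map (fun z : ℚ => (z : ℝ))).det ≠ 0 → x ∈ N →
      1 ≤ C * Sz (sErr (q.map (fun z : ℚ => (z : ℝ))) ξ) x := by
    have : Countable (Matrix (Fin d) (Fin d) ℚ) := inferInstanceAs (Countable (Fin d → Fin d → ℚ))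
    rw [ae_all_iff]
    intro q
    by_cases hq : (q.map (fun z : ℚ => (z : ℝ))).det ≠ 0
    · set A : Matrix (Fin d) (Fin d) ℝ := q.map (fun z : ℚ => (z : ℝ)) with hA
      have h := hest Om hOm ρ (fun _ => 1) (sErr A ξ) (fun i x => ∑ j, A⁻¹ i j * b j x)
        (integrable_const _) (fun _ => zero_le_one) (sErr_integrable hξ A)
        (fun i => integrable_finsetSum _ fun j _ => (hb j).const_mul _) ?_ N hN hN0 hNOm
      · filter_upwards [h] with x hx _ hxN
        exact hx hxN
      · intro i ψ hψ hψc hψs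
        have hcψ : ∀ v : E d, Integrable (fun x => fderiv ℝ ψ x v) ρ := fun v => by
          have hc : Continuous fun x => fderiv ℝ ψ x v :=
            (hψ.continuous_fderiv (by simp)).clm_apply continuous_const
          exact hc.integrable_of_hasCompactSupport (hψc.fderiv_apply (𝕜 := ℝ) v)
        have hfs : ∀ s : E d → E d, Integrable s ρ →
            Integrable (fun x => fderiv ℝ ψ x (s x)) ρ := fun s hs => by
          simp only [fderiv_eq_sum]
          refine integrable_finsetSum _ fun j _ => ?_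
          obtain ⟨B, hB⟩ := bdd_of (contDiff_pd hψ j).continuous (pd_cs hψc j)
          exact (int_coord hs j).mul_bdd (c := B) (contDiff_pd hψ j).continuous.aestronglyMeasurable
            (Eventually.of_forall fun y => by simpa using hB y)
        have hψb : ∀ j, Integrable (fun x => ψ x * b j x) ρ := fun j => by
          obtain ⟨B, hB⟩ := bdd_of hψ.continuous hψc
          have := (hb j).mul_bdd (c := B) hψ.continuous.aestronglyMeasurable
            (Eventually.of_forall fun y => by simpa using hB y)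
          simpa [mul_comm] using this
        have e1 : ∀ x, pd i ψ x * 1 = fderiv ℝ ψ x (sErr A ξ i x) +
            ∑ j, A⁻¹ i j * fderiv ℝ ψ x (ξ j x) := by
          intro x
          have h1 : ei i = sErr A ξ i x + ∑ j, A⁻¹ i j • ξ j x := by
            unfold sErr
            simp only [smul_sub]
            rw [Finset.sum_sub_distrib, frame_eq hq]
            abel
          rw [mul_one]
          show fderiv ℝ ψ x (ei i) = _
          conv_lhs => rw [h1]
          rw [map_add, map_sum]
          congr 1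
          exact Finset.sum_congr rfl fun j _ => by rw [map_smul, smul_eq_mul]
        have e2 : ∀ x, ψ x * ∑ j, A⁻¹ i j * b j x = ∑ j, A⁻¹ i j * (ψ x * b j x) := by
          intro x
          rw [Finset.mul_sum]
          exact Finset.sum_congr rfl fun j _ => by ring
        simp only [e1, e2]
        rw [integral_add (hfs _ (sErr_integrable hξ A i))
          (integrable_finsetSum _ fun j _ => (hfs _ (hξ j)).const_mul _),
          integral_finsetSum _ fun j _ => (hfs _ (hξ j)).const_mul _,
          integral_finsetSum _ fun j _ => (hψb j).const_mul _]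
        congr 1
        refine Finset.sum_congr rfl fun j _ => ?_
        rw [integral_const_mul, integral_const_mul, hdiv j ψ hψ hψc hψs]
    · exact Eventually.of_forall fun x h' => absurd h' hq
  filter_upwards [hcount] with x hx hxN hli
  -- the matrix of the frame at x
  set X : Matrix (Fin d) (Fin d) ℝ := Matrix.of fun j k => ξ j x k with hX
  have hXdet : X.det ≠ 0 := by
    have h1 : LinearIndependent ℝ (fun j => (X j : Fin d → ℝ)) := by
      have h2 := hli.map' (WithLp.linearEquiv 2 ℝ (Fin d → ℝ)).toLinearMap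
        (LinearMap.ker_eq_bot_of_injective (WithLp.linearEquiv 2 ℝ (Fin d → ℝ)).injective)
      exact h2
    have h3 : IsUnit X := Matrix.linearIndependent_rows_iff_isUnit.1 h1
    exact ((Matrix.isUnit_iff_isUnit_det X).1 h3).ne_zero
  -- continuity of the error at X
  set F : Matrix (Fin d) (Fin d) ℝ → ℝ := fun A =>
    ∑ p : Fin d × Fin d, |(1 - A⁻¹ * X) p.1 p.2| with hF
  have hinv : ContinuousAt (fun A : Matrix (Fin d) (Fin d) ℝ => A⁻¹) X := by
    have h1 : (fun A : Matrix (Fin d) (Fin d) ℝ => A⁻¹) = fun A => Ring.inverse A.det • A.adjugate := by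
      funext A
      rw [Matrix.inv_def]
    rw [h1]
    have h2 : ContinuousAt (fun A : Matrix (Fin d) (Fin d) ℝ => (A.det)⁻¹) X :=
      (Continuous.matrix_det continuous_id).continuousAt.inv₀ hXdet
    have h3 : ContinuousAt (fun A : Matrix (Fin d) (Fin d) ℝ => A.adjugate) X :=
      (Continuous.matrix_adjugate continuous_id).continuousAt
    have h4 : ContinuousAt (fun A : Matrix (Fin d) (Fin d) ℝ => Ring.inverse A.det) X :=
      h2.congr (Eventually.of_forall fun A => by simp)
    exact h4.smul h3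
  have hFc : ContinuousAt F X := by
    rw [hF]
    refine tendsto_finsetSum _ fun p _ => ?_
    have h1 : ContinuousAt (fun A : Matrix (Fin d) (Fin d) ℝ => (1 - A⁻¹ * X)) X :=
      continuousAt_const.sub (hinv.mul continuousAt_const)
    have h2 : Continuous fun B : Matrix (Fin d) (Fin d) ℝ => |B p.1 p.2| :=
      (Continuous.matrix_elem continuous_id p.1 p.2).abs
    exact h2.continuousAt.comp (f := fun A : Matrix (Fin d) (Fin d) ℝ => (1 - A⁻¹ * X)) h1
  have hFX : F X = 0 := by
    rw [hF]
    simp only [Matrix.nonsing_inv_mul X (isUnit_iff_ne_zero.2 hXdet), sub_self]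
    simp
  have hev : ∀ᶠ A in 𝓝 X, A.det ≠ 0 ∧ F A < 1 / (C + 1) := by
    refine Filter.Eventually.and ?_ ?_
    · exact (Continuous.matrix_det continuous_id).continuousAt.eventually_ne hXdet
    · have : F X < 1 / (C + 1) := by rw [hFX]; positivity
      exact hFc.eventually_lt continuousAt_const this
  have hdense : DenseRange (fun q : Matrix (Fin d) (Fin d) ℚ => q.map (fun z : ℚ => (z : ℝ))) := by
    have h1 : DenseRange (Pi.map fun _ : Fin d => Pi.map fun _ : Fin d => ((↑) : ℚ → ℝ)) :=
      DenseRange.piMap fun _ => DenseRange.piMap fun _ => Rat.denseRange_cast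
    exact h1
  obtain ⟨A, ⟨q, hq⟩, hAdet, hAF⟩ : ∃ A, A ∈ Set.range
      (fun q : Matrix (Fin d) (Fin d) ℚ => q.map (fun z : ℚ => (z : ℝ))) ∧
      A.det ≠ 0 ∧ F A < 1 / (C + 1) := by
    obtain ⟨V, hV, hVo, hXV⟩ := eventually_nhds_iff.1 hev
    obtain ⟨A, hAV, hAr⟩ := hdense.inter_open_nonempty V hVo ⟨X, hXV⟩
    exact ⟨A, hAr, hV A hAV⟩
  have hq' : q.map (fun z : ℚ => (z : ℝ)) = A := hq
  have h1 := hx q (by rw [hq']; exact hAdet) hxN
  rw [hq'] at h1
  have h2 : Sz (sErr A ξ) x = F A := by
    unfold Sz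
    rw [hF]
    refine Finset.sum_congr rfl fun p _ => ?_
    rw [sErr_coord hAdet]
  rw [h2] at h1
  have h3 : C * F A ≤ C * (1 / (C + 1)) := mul_le_mul_of_nonneg_left hAF.le hC
  have h4 : C * (1 / (C + 1)) < 1 := by
    rw [mul_one_div, div_lt_one (by linarith)]
    linarith
  linarith

end Vale.Agent.P073.H940
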